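import Vale.Agent.P368.Base

/-! Job AL: algebra of product operators and circuits. -/

namespace Vale.Agent.P368

open Matrix
open scoped Matrix.Norms.L2Operator

variable {ι : Type} [Fintype ι] [DecidableEq ι]

lemma prodM_mul (f g : ι → Matrix Bool Bool ℂ) : prodM f * prodM g = prodM fun i => f i * g i := by
  ext x y
  simp only [prodM, Matrix.mul_apply, of_apply]
  rw [Finset.prod_univ_sum, Fintype.piFinset_univ]
  exact Finset.sum_congr rfl fun z _ => Finset.prod_mul_distrib.symm
lemma prodM_star (f : ι → Matrix Bool Bool ℂ) : (prodM f)ᴴ = prodM fun i => (f i)ᴴ := by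
  ext x y
  simp only [prodM, conjTranspose_apply, of_apply, star_prod]
lemma prodM_one : prodM (fun _ : ι => (1 : Matrix Bool Bool ℂ)) = 1 := by
  ext x y
  simp only [prodM, of_apply, Matrix.one_apply]
  by_cases h : x = y
  · subst h
    simp
  · rw [if_neg h]
    obtain ⟨i, hi⟩ := Function.ne_iff.1 h
    exact Finset.prod_eq_zero (Finset.mem_univ i) (if_neg hi)
lemma prodM_diagonal (f : ι → Bool → ℂ) :
    prodM (fun i => diagonal (f i)) = diagonal fun x => ∏ i, f i (x i) := by
  ext x y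
  simp only [prodM, of_apply, Matrix.diagonal_apply]
  by_cases h : x = y
  · subst h
    simp
  · rw [if_neg h]
    obtain ⟨i, hi⟩ := Function.ne_iff.1 h
    exact Finset.prod_eq_zero (Finset.mem_univ i) (if_neg hi)
lemma prodM_ne_zero {f : ι → Matrix Bool Bool ℂ} {x y : ι → Bool} (h : prodM f x y ≠ 0) {i : ι}
    (hi : f i = 1) : x i = y i := by
  by_contra hne
  refine h ?_
  simp only [prodM, of_apply]
  refine Finset.prod_eq_zero (Finset.mem_univ i) ?_
  rw [hi, Matrix.one_apply, if_neg hne]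

lemma IsProd.unitary {U : Op ι} (h : IsProd U) : U ∈ unitary (Op ι) := by
  obtain ⟨f, hf, rfl⟩ := h
  rw [Unitary.mem_iff, star_eq_conjTranspose, prodM_star, prodM_mul, prodM_mul]
  have h1 : (fun i => (f i)ᴴ * f i) = fun _ => 1 := funext fun i => (Unitary.mem_iff.1 (hf i)).1
  have h2 : (fun i => f i * (f i)ᴴ) = fun _ => 1 := funext fun i => (Unitary.mem_iff.1 (hf i)).2
  rw [h1, h2, prodM_one]
  exact ⟨rfl, rfl⟩
lemma IsProd.one : IsProd (1 : Op ι) := ⟨fun _ => 1, fun _ => one_mem _, prodM_one.symm⟩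
lemma IsProd.mul {U V : Op ι} (h : IsProd U) (h' : IsProd V) : IsProd (U * V) := by
  obtain ⟨f, hf, rfl⟩ := h
  obtain ⟨g, hg, rfl⟩ := h'
  exact ⟨fun i => f i * g i, fun i => mul_mem (hf i) (hg i), prodM_mul f g⟩
lemma IsProd.star {U : Op ι} (h : IsProd U) : IsProd Uᴴ := by
  obtain ⟨f, hf, rfl⟩ := h
  exact ⟨fun i => (f i)ᴴ, fun i => Unitary.star_mem (hf i), prodM_star f⟩
lemma cz_star (G : Finset (Finset ι)) : (cz G)ᴴ = cz G := by
  unfold cz
  rw [diagonal_conjTranspose]
  refine congrArg diagonal (funext fun x => ?_)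
  rw [Pi.star_apply, star_prod]
  refine Finset.prod_congr rfl fun g _ => ?_
  split_ifs <;> simp
lemma Alg.cz_mul_self (G : Finset (Finset ι)) : cz G * cz G = 1 := by
  unfold cz
  rw [diagonal_mul_diagonal, ← diagonal_one]
  refine congrArg diagonal (funext fun x => ?_)
  rw [← Finset.prod_mul_distrib]
  refine Finset.prod_eq_one fun g _ => ?_
  split_ifs <;> norm_num
lemma cz_unitary (G : Finset (Finset ι)) : cz G ∈ unitary (Op ι) := by
  rw [Unitary.mem_iff, star_eq_conjTranspose, cz_star, Alg.cz_mul_self]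
  exact ⟨rfl, rfl⟩
lemma IsLay.one : IsLay (1 : Op ι) := ⟨∅, by simp, by simp [cz]⟩

lemma Cir.unitary {d : ℕ} {W : Op ι} (h : Cir d W) : W ∈ unitary (Op ι) := by
  induction h with
  | base hU => exact hU.unitary
  | step _ hZ hU ih =>
    obtain ⟨G, -, rfl⟩ := hZ
    exact mul_mem (mul_mem ih (cz_unitary G)) hU.unitary
lemma Cir.mul_prod {d : ℕ} {W U : Op ι} (h : Cir d W) (hU : IsProd U) : Cir d (W * U) := by
  cases h with
  | base hV => exact Cir.base (hV.mul hU)
  | step hW hZ hV =>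
    rw [mul_assoc]
    exact Cir.step hW hZ (hV.mul hU)
lemma Cir.prod_mul {d : ℕ} {W U : Op ι} (h : Cir d W) (hU : IsProd U) : Cir d (U * W) := by
  induction h with
  | base hV => exact Cir.base (hU.mul hV)
  | step _ hZ hV ih =>
    rw [← mul_assoc, ← mul_assoc]
    exact Cir.step ih hZ hV
lemma Alg.left_step {d : ℕ} {W Z U : Op ι} (h : Cir d W) (hZ : IsLay Z) (hU : IsProd U) :
    Cir (d + 1) (U * Z * W) := by
  induction h with
  | base hV => exact Cir.step (Cir.base hU) hZ hV
  | step _ hZ' hV ih =>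
    rw [← mul_assoc, ← mul_assoc]
    exact Cir.step ih hZ' hV
lemma Cir.star {d : ℕ} {W : Op ι} (h : Cir d W) : Cir d Wᴴ := by
  induction h with
  | base hV => exact Cir.base hV.star
  | step _ hZ hV ih =>
    obtain ⟨G, hG, rfl⟩ := hZ
    rw [conjTranspose_mul, conjTranspose_mul, cz_star, ← mul_assoc]
    exact Alg.left_step ih ⟨G, hG, rfl⟩ hV.star
lemma Cir.mono {d d' : ℕ} {W : Op ι} (h : Cir d W) (hd : d ≤ d') : Cir d' W := by
  induction hd with
  | refl => exact h
  | step _ ih =>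
    have h1 := Cir.step ih IsLay.one IsProd.one
    rwa [mul_one, mul_one] at h1

end Vale.Agent.P368
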