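import Vale.Agent.P368.Defs
import Mathlib.Analysis.CStarAlgebra.Matrix

/-! Product operators, circuit classes, counters and the statements of the induction. -/

namespace Vale.Agent.P368

open Matrix
open scoped Matrix.Norms.L2Operator

/-- Operators on the qubits `ι`. -/
abbrev Op (ι : Type) : Type := Matrix (ι → Bool) (ι → Bool) ℂ

variable {ι : Type} [Fintype ι] [DecidableEq ι]

/-- Tensor product of one-qubit matrices. -/
noncomputable def prodM (f : ι → Matrix Bool Bool ℂ) : Op ι := of fun x y => ∏ i, f i (x i) (y i)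

/-- Products of one-qubit unitaries. -/
def IsProd (U : Op ι) : Prop := ∃ f : ι → Matrix Bool Bool ℂ,
  (∀ i, f i ∈ unitary (Matrix Bool Bool ℂ)) ∧ U = prodM f

/-- Product of the multi-controlled sign gates on the sets in `G`. -/
noncomputable def cz (G : Finset (Finset ι)) : Op ι :=
  diagonal fun x => ∏ g ∈ G, (1 - 2 * if ∀ i ∈ g, x i = true then 1 else 0)

/-- Layers of multi-controlled sign gates with disjoint supports. -/
def IsLay (Z : Op ι) : Prop :=
  ∃ G : Finset (Finset ι), (∀ g ∈ G, ∀ g' ∈ G, g ≠ g' → Disjoint g g') ∧ Z = cz G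

/-- Circuits with `d` entangling layers. -/
inductive Cir : ℕ → Op ι → Prop
  | base {U : Op ι} : IsProd U → Cir 0 U
  | step {d : ℕ} {W Z U : Op ι} : Cir d W → IsLay Z → IsProd U → Cir (d + 1) (W * Z * U)

/-- The number of positions in `S` where `x` differs from `v`. -/
def cnt (S : Finset ι) (v x : ι → Bool) : ℕ := (S.filter fun i => x i ≠ v i).card

/-- The diagonal projection on the basis states satisfying `p`. -/
noncomputable def dg (p : (ι → Bool) → Prop) [DecidablePred p] : Op ι :=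
  diagonal fun x => if p x then 1 else 0

/-- Product contractions acting on at most `m` qubits. -/
def Mono (m : ℕ) (M : Op ι) : Prop := ∃ (S : Finset ι) (f : ι → Matrix Bool Bool ℂ),
  S.card ≤ m ∧ (∀ i ∉ S, f i = 1) ∧ M = prodM f ∧ ‖M‖ ≤ 1

/-- Combinations of such operators with total weight at most `Λ`. -/
def Dg (m : ℕ) (Λ : ℝ) (F : Op ι) : Prop := ∃ (κ : Type) (_ : Fintype κ) (c : κ → ℂ) (M : κ → Op ι),
  (∀ k, Mono m (M k)) ∧ ∑ k, ‖c k‖ ≤ Λ ∧ F = ∑ k, c k • M k

/-- A conjugated product projection hardly moves a vacuum to `x` excitations. -/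
def Tail (ι : Type) [Fintype ι] [DecidableEq ι] (d x L : ℕ) : Prop :=
  ∀ W : Op ι, Cir d W → ∀ (S : Finset ι) (v : ι → Bool) (J : Finset ι) (u : ι → Bool),
    ‖dg (fun y => x ≤ cnt S v y) * (W * dg (fun y => cnt J u y = 0) * Wᴴ) *
      dg (fun y => cnt S v y = 0)‖ ≤ (1 / 2) ^ L

/-- Conjugated local operators hardly create many excitations. -/
def Locl (ι : Type) [Fintype ι] [DecidableEq ι] (d Γ : ℕ) : Prop :=
  ∀ z, 1 ≤ z → ∀ W : Op ι, Cir d W → ∀ M : Op ι, Mono z M → ∀ (S : Finset ι) (v : ι → Bool),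
    ‖dg (fun y => Γ * z < cnt S v y) * (W * M * Wᴴ) * dg (fun y => cnt S v y ≤ z)‖ ≤ (1 / 2) ^ z

end Vale.Agent.P368
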