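import Vale.Agent.P368.Step

/-! Job BO: the bootstrap. -/

namespace Vale.Agent.P368

open Matrix
open scoped Matrix.Norms.L2Operator

variable {ι : Type} [Fintype ι] [DecidableEq ι]

namespace Boot

lemma tail_big {d x : ℕ} (hx : Fintype.card ι < x) (L : ℕ) : Tail ι d x L := by
  intro W _ S v J u
  have h0 : dg (fun y => x ≤ cnt S v y) = 0 := by
    have : (fun y : ι → Bool => if x ≤ cnt S v y then (1 : ℂ) else 0) = fun _ => 0 := by
      funext y
      have h1 : cnt S v y ≤ Fintype.card ι := Finset.card_le_univ _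
      rw [if_neg (by omega)]
    rw [dg, this, diagonal_zero]
  rw [h0, zero_mul, zero_mul, norm_zero]
  positivity

lemma tail_zero (d x : ℕ) : Tail ι d x 0 := by
  intro W hW S v J u
  have h1 := norm_dg_le (ι := ι) (fun y => x ≤ cnt S v y)
  have h2 := norm_dg_le (ι := ι) (fun y => cnt S v y = 0)
  have h3 : ‖W * dg (fun y => cnt J u y = 0) * Wᴴ‖ ≤ 1 := by
    rw [norm_conj hW.unitary]; exact norm_dg_le _
  rw [pow_zero]
  refine (norm_mul_le _ _).trans (mul_le_one₀ ((norm_mul_le _ _).trans ?_) (norm_nonneg _) h2)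
  exact mul_le_one₀ h1 (norm_nonneg _) h3

lemma tail_mono {d x x' L : ℕ} (h : Tail ι d x L) (hx : x ≤ x') : Tail ι d x' L := by
  intro W hW S v J u
  exact (norm_dg_mono (fun _ hy => hx.trans hy) (fun _ hy => hy) _).trans (h W hW S v J u)

lemma down {d Γ lam D i L : ℕ} (h : Locl ι d Γ) (hΓ : 1 ≤ Γ) (hN : Fintype.card ι + 1 ≤ 2 ^ lam)
    (hD : 2 * Γ * ((lam + 3) ^ 2 + 1) < D) (hi : Fintype.card ι < D ^ (i ^ 2)) (hL : 1 ≤ L)
    (r : ℕ) : ∀ a, a + 1 + r = i →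
      Tail ι d (L * D ^ ((a + 1) * (a + 1 + 2 * r))) (L * D ^ (a * (a + 2 * r + 2))) := by
  obtain ⟨K, hK⟩ : ∃ K, K = (lam + 3) ^ 2 + 1 := ⟨_, rfl⟩
  have hK2 : 2 ≤ K := by
    have : 0 < (lam + 3) ^ 2 := by positivity
    omega
  have hD' : 2 * Γ * K < D := hK ▸ hD
  have hKD : 2 * K ≤ D := by nlinarith
  have hD4 : 4 ≤ D := by omega
  induction r with
  | zero =>
    intro a ha
    refine tail_big (hi.trans_le ?_) _
    have e : (a + 1) * (a + 1 + 2 * 0) = i ^ 2 := by rw [← ha]; ring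
    rw [e]
    exact Nat.le_mul_of_pos_left _ hL
  | succ r ih =>
    intro a ha
    have hT := ih (a + 1) (by omega)
    obtain ⟨P, hP⟩ : ∃ P, P = D ^ (a * (a + 2 * r + 4)) := ⟨_, rfl⟩
    obtain ⟨Q, hQ⟩ : ∃ Q, Q = D ^ (2 * r + 2) := ⟨_, rfl⟩
    have hP1 : 1 ≤ P := hP ▸ Nat.one_le_pow _ _ (by omega)
    have hQ4 : 4 ≤ Q := hQ ▸ hD4.trans (Nat.le_self_pow (by omega) _)
    have e1 : D ^ ((a + 1 + 1) * (a + 1 + 1 + 2 * r)) = P * Q ^ 2 := by
      rw [hP, hQ, ← pow_mul, ← pow_add]; congr 1; ring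
    have e2 : D ^ ((a + 1) * (a + 1 + 2 * r + 2)) = P * Q * D := by
      rw [hP, hQ, ← pow_add, ← pow_succ]; congr 1; ring
    have e3 : D ^ ((a + 1) * (a + 1 + 2 * (r + 1))) = P * Q * D := by
      rw [← e2]; congr 1
    have e4 : D ^ (a * (a + 2 * (r + 1) + 2)) = P := by
      rw [hP]; congr 1
    rw [e1, e2] at hT
    rw [e3, e4]
    have hLP : 1 ≤ L * P := Nat.mul_pos hL hP1
    have hLPQ : 1 ≤ L * P * Q := Nat.mul_pos hLP (by omega)
    refine boot_step (s := 2 * (L * P * Q)) h hN hT hLP ?_ (le_of_eq (by ring)) ?_ ?_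
    · have : 4 ≤ Q ^ 2 := by nlinarith
      calc 4 * (L * P) ≤ Q ^ 2 * (L * P) := Nat.mul_le_mul_right _ this
        _ = _ := by ring
    · rw [← hK]
      calc K * (2 * (L * P * Q)) = 2 * K * (L * P * Q) := by ring
        _ ≤ D * (L * P * Q) := Nat.mul_le_mul_right _ hKD
        _ = _ := by ring
    · rw [← hK]
      calc Γ * (K * (2 * (L * P * Q))) = 2 * Γ * K * (L * P * Q) := by ring
        _ < D * (L * P * Q) := Nat.mul_lt_mul_of_pos_right hD' hLPQ
        _ = _ := by ring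

end Boot

theorem boot {d Γ lam D i : ℕ} (h : Locl ι d Γ) (hΓ : 1 ≤ Γ) (hN : Fintype.card ι + 1 ≤ 2 ^ lam)
    (hD : 2 * Γ * ((lam + 3) ^ 2 + 1) < D) (hi : Fintype.card ι < D ^ (i ^ 2)) (L : ℕ) :
    Tail ι d (D ^ (2 * i) * L) L := by
  rcases Nat.eq_zero_or_pos L with rfl | hL
  · exact Boot.tail_zero _ _
  rcases i with _ | r
  · refine Boot.tail_big ?_ _
    simp only [mul_zero, pow_zero, one_mul, ne_eq, OfNat.ofNat_ne_zero, not_false_eq_true,
      zero_pow] at hi ⊢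
    omega
  · have h1 := Boot.down h hΓ hN hD hi hL r 0 (by omega)
    simp only [zero_mul, pow_zero, mul_one] at h1
    refine Boot.tail_mono h1 ?_
    rw [mul_comm]
    exact Nat.mul_le_mul_right _ (Nat.pow_le_pow_right (by omega) (by omega))

end Vale.Agent.P368
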