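import Vale.Agent.P368.Alg

/-! Job CI: QAC circuits lie in the circuit classes. -/

namespace Vale.Agent.P368

open Matrix
open scoped Matrix.Norms.L2Operator

namespace CI

variable {ι : Type} [Fintype ι] [DecidableEq ι]

/-- The Hadamard matrix. -/
noncomputable def hm : Matrix Bool Bool ℂ := of fun a b => (if a && b then -1 else 1) / (√2 : ℝ)

lemma s2 : ((√2 : ℝ) : ℂ) ^ 2 = 2 := by
  rw [← Complex.ofReal_pow, Real.sq_sqrt zero_le_two]; norm_num

lemma hm_unitary : hm ∈ unitary (Matrix Bool Bool ℂ) := by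
  have h : hmᴴ = hm := by ext a b; cases a <;> cases b <;> simp [hm]
  have : hm * hm = 1 := by
    ext a b
    cases a <;> cases b <;> simp [hm, mul_apply, div_eq_mul_inv, ← sq, s2]
  constructor <;> rw [star_eq_conjTranspose, h, this]

/-- Factorization of an operator supported on `S`. -/
def Fac (S : Finset ι) (X : Op ι) : Prop := ∃ (f f' : ι → Matrix Bool Bool ℂ) (G : Finset (Finset ι)),
  (∀ i, f i ∈ unitary (Matrix Bool Bool ℂ) ∧ f' i ∈ unitary (Matrix Bool Bool ℂ)) ∧
  (∀ i ∉ S, f i = 1 ∧ f' i = 1) ∧ (∀ g ∈ G, g.Nonempty ∧ g ⊆ S) ∧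
  (∀ g ∈ G, ∀ g' ∈ G, g ≠ g' → Disjoint g g') ∧ X = prodM f * cz G * prodM f'

lemma comm_cz {f : ι → Matrix Bool Bool ℂ} {G : Finset (Finset ι)} (h : ∀ g ∈ G, ∀ i ∈ g, f i = 1) :
    prodM f * cz G = cz G * prodM f := by
  ext x y
  simp only [cz, mul_diagonal, diagonal_mul]
  by_cases h0 : prodM f x y = 0
  · simp [h0]
  rw [mul_comm]
  congr 1
  refine Finset.prod_congr rfl fun g hg => ?_
  have : (∀ i ∈ g, y i = true) ↔ ∀ i ∈ g, x i = true :=
    forall₂_congr fun i hi => by rw [prodM_ne_zero h0 (h g hg i hi)]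
  simp only [this]

lemma Fac.mul {S T : Finset ι} {X Y : Op ι} (hX : Fac S X) (hY : Fac T Y) (h : Disjoint S T) :
    Fac (S ∪ T) (X * Y) := by
  obtain ⟨f, f', G, u, o, s, d, rfl⟩ := hX
  obtain ⟨k, k', K, u', o', s', d', rfl⟩ := hY
  have hd : ∀ g ∈ G, ∀ g' ∈ K, Disjoint g g' := fun g hg g' hg' =>
    h.mono (s g hg).2 (s' g' hg').2
  refine ⟨fun i => f i * k i, fun i => f' i * k' i, G ∪ K,
    fun i => ⟨mul_mem (u i).1 (u' i).1, mul_mem (u i).2 (u' i).2⟩, fun i hi => ?_, fun g hg => ?_,
    fun g hg g' hg' hn => ?_, ?_⟩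
  · rw [Finset.notMem_union] at hi
    simp [o i hi.1, o' i hi.2]
  · rcases Finset.mem_union.mp hg with hg | hg
    exacts [⟨(s g hg).1, (s g hg).2.trans Finset.subset_union_left⟩,
      ⟨(s' g hg).1, (s' g hg).2.trans Finset.subset_union_right⟩]
  · rcases Finset.mem_union.mp hg with hg | hg <;> rcases Finset.mem_union.mp hg' with hg' | hg'
    exacts [d g hg g' hg' hn, hd g hg g' hg', (hd g' hg' g hg).symm, d' g hg g' hg' hn]
  · have h1 : cz (G ∪ K) = cz G * cz K := by
      rw [cz, cz, cz, diagonal_mul_diagonal]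
      congr 1
      funext x
      refine Finset.prod_union (Finset.disjoint_left.mpr fun g hg hg' => ?_)
      exact (s g hg).1.ne_empty (disjoint_self.mp (hd g hg g hg'))
    have h2 : prodM f' * prodM k = prodM k * prodM f' := by
      rw [prodM_mul, prodM_mul]
      congr 1
      funext i
      by_cases hi : i ∈ S
      · simp [(o' i (Finset.disjoint_left.mp h hi)).1]
      · simp [(o i hi).2]
    have h3 : prodM k * cz G = cz G * prodM k := comm_cz fun g hg i hi =>
      (o' i (Finset.disjoint_left.mp h ((s g hg).2 hi))).1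
    have h4 : prodM f' * cz K = cz K * prodM f' := comm_cz fun g hg i hi =>
      (o i (Finset.disjoint_right.mp h ((s' g hg).2 hi))).2
    rw [h1, ← prodM_mul, ← prodM_mul]
    simp only [mul_assoc]
    rw [← mul_assoc (prodM f'), h2, mul_assoc, ← mul_assoc (prodM f'), h4, ← mul_assoc (cz G), ← h3]
    simp only [mul_assoc]

lemma cz_empty : cz (∅ : Finset (Finset ι)) = 1 := by simp [cz]

lemma upd (q : ι) (U : Matrix Bool Bool ℂ) (x y : ι → Bool) :
    prodM (Function.update (fun _ => 1) q U) x y =
      if ∀ p, p ≠ q → x p = y p then U (x q) (y q) else 0 := by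
  rw [prodM, of_apply, ← Finset.mul_prod_erase _ _ (Finset.mem_univ q), Function.update_self]
  split_ifs with h
  · rw [Finset.prod_eq_one, mul_one]
    intro i hi
    have := Finset.ne_of_mem_erase hi
    simp [this, h i this]
  · push Not at h
    obtain ⟨p, hp, h⟩ := h
    rw [Finset.prod_eq_zero (i := p) (by simpa using hp) (by simp [hp, h]), mul_zero]

lemma fac_gate {N : ℕ} {g : Gate N} (h : g.WF) : Fac g.supp g.mat := by
  have hu : ∀ (q : Fin N) {U : Matrix Bool Bool ℂ}, U ∈ unitary _ → ∀ i,
      Function.update (fun _ => (1 : Matrix Bool Bool ℂ)) q U i ∈ unitary _ := fun q U hU i => by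
    by_cases hi : i = q
    · simpa [hi]
    · simp [hi]
  cases g with
  | one q U =>
    refine ⟨Function.update (fun _ => 1) q U, fun _ => 1, ∅, fun i => ⟨hu q h i, one_mem _⟩,
      fun i hi => ⟨Function.update_of_ne (by simpa [Gate.supp] using hi) _ _, rfl⟩, by simp,
      by simp, ?_⟩
    rw [cz_empty, prodM_one, mul_one, mul_one]
    ext x y
    simp only [upd, Gate.mat, of_apply]
    congr
  | tof c b =>
    have hi : ∀ i ∉ Gate.supp (.tof c b), 
        Function.update (fun _ => (1 : Matrix Bool Bool ℂ)) b hm i = 1 := fun i hi =>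
      Function.update_of_ne (by rintro rfl; simp [Gate.supp] at hi) _ _
    refine ⟨_, _, {insert b c}, fun i => ⟨hu b hm_unitary i, hu b hm_unitary i⟩,
      fun i h => ⟨hi i h, hi i h⟩, by simp [Gate.supp], by simp, ?_⟩
    ext x y
    rw [mul_apply]
    simp only [cz, mul_diagonal, upd, Finset.prod_singleton, Gate.mat, of_apply]
    have hb : b ∉ c := h.2
    by_cases hxy : ∀ p, p ≠ b → x p = y p
    · rw [Finset.sum_eq_add (Function.update y b false) (Function.update y b true)
        (fun e => by simpa using congrFun e b) (fun w _ hw => ?_) (by simp) (by simp)]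
      · have h1 : ∀ v p, p ≠ b → x p = Function.update y b v p := fun v p hp => by
          simp [hp, hxy p hp]
        have h2 : ∀ v p, p ≠ b → Function.update y b v p = y p := fun v p hp => by simp [hp]
        have h3 : (∀ i ∈ c, Function.update y b true i = true) ↔ ∀ i ∈ c, y i = true :=
          forall₂_congr fun i hic => by rw [Function.update_of_ne (fun e : i = b => hb (e ▸ hic))]
        have h4 : ∀ v, x = Function.update y b v ↔ x b = v := fun v =>
          Function.eq_update_iff.trans (and_iff_left hxy)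
        simp only [if_pos (h1 _), if_pos (h2 _), Function.update_self, Finset.forall_mem_insert, h3,
          h4]
        obtain ⟨r, hr, s3⟩ : ∃ r : ℂ, (∀ a b, hm a b = (if a && b then -1 else 1) * r) ∧
            r * r = 1 / 2 := ⟨((√2 : ℝ) : ℂ)⁻¹, fun a b => div_eq_mul_inv _ _, by
          rw [← mul_inv, ← sq, s2]; norm_num⟩
        by_cases hc : ∀ i ∈ c, y i = true
        · simp only [eq_true hc, hr]
          cases x b <;> cases y b <;> simp <;> first | linear_combination 0 * s3 | linear_combination -2 * s3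
        · simp only [eq_false hc, hr]
          cases x b <;> cases y b <;> simp <;> first | linear_combination 0 * s3 | linear_combination -2 * s3
      · rw [if_neg (c := ∀ p, p ≠ b → w p = y p), mul_zero]
        intro hw'
        have : w = Function.update y b (w b) := Function.eq_update_iff.mpr ⟨rfl, hw'⟩
        cases hv : w b <;> rw [hv] at this
        exacts [hw.1 this, hw.2 this]
    · rw [if_neg fun e => hxy fun p hp => by rw [e, Function.update_of_ne hp]]
      refine (Finset.sum_eq_zero fun w _ => ?_).symm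
      split_ifs with h1 h2 h3 h3
      all_goals first | exact absurd (fun p hp => (h1 p hp).trans (by apply_assumption; exact hp)) hxy | simp

lemma fac_list {N : ℕ} (L : List (Gate N)) (h : LayerWF L) :
    ∃ S, (∀ i ∈ S, ∃ g ∈ L, i ∈ g.supp) ∧ Fac S (L.map Gate.mat).prod := by
  induction L with
  | nil => exact ⟨∅, by simp, fun _ => 1, fun _ => 1, ∅, by simp, by simp, by simp, by simp,
      by simp [prodM_one, cz_empty]⟩
  | cons g L ih =>
    obtain ⟨h1, h2⟩ := h
    rw [List.pairwise_cons] at h2
    obtain ⟨S, hS, hF⟩ := ih ⟨fun g hg => h1 g (List.mem_cons_of_mem _ hg), h2.2⟩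
    refine ⟨g.supp ∪ S, fun i hi => ?_, (fac_gate (h1 g List.mem_cons_self)).mul hF
      (Finset.disjoint_right.mpr fun i hi => ?_)⟩
    · rcases Finset.mem_union.mp hi with hi | hi
      · exact ⟨g, List.mem_cons_self, hi⟩
      · exact (hS i hi).imp fun g' h => ⟨List.mem_cons_of_mem _ h.1, h.2⟩
    · obtain ⟨g', hg, hi⟩ := hS i hi
      exact Finset.disjoint_right.mp (h2.1 g' hg) hi

end CI

theorem cir_run {N : ℕ} (C : List (List (Gate N))) (h : ∀ L ∈ C, LayerWF L) :
    Cir C.length (run C) := by
  induction C with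
  | nil => exact Cir.base IsProd.one
  | cons L C ih =>
    obtain ⟨S, -, f, f', G, u, -, -, d, e⟩ := CI.fac_list L (h L List.mem_cons_self)
    rw [run, e, ← mul_assoc, ← mul_assoc]
    exact ((ih fun L hL => h L (List.mem_cons_of_mem _ hL)).mul_prod
      ⟨f, fun i => (u i).1, rfl⟩).step ⟨G, d, rfl⟩ ⟨f', fun i => (u i).2, rfl⟩

end Vale.Agent.P368
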