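import Mathlib.LinearAlgebra.UnitaryGroup
import Mathlib.Analysis.Complex.Basic

/-! QAC circuits: one-qubit unitaries and generalized Toffoli gates. -/

namespace Vale.Agent.P368

open Matrix

/-- Gates on `N` qubits: a one-qubit matrix on a wire, or a generalized Toffoli gate with a set of
controls and a target. -/
inductive Gate (N : ℕ) : Type
  | one (q : Fin N) (U : Matrix Bool Bool ℂ) : Gate N
  | tof (c : Finset (Fin N)) (b : Fin N) : Gate N

variable {N : ℕ}

/-- The qubits a gate acts on. -/
def Gate.supp : Gate N → Finset (Fin N)
  | .one q _ => {q}
  | .tof c b => insert b c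

/-- One-qubit gates are unitary; a Toffoli gate has at least one control, distinct from the target. -/
def Gate.WF : Gate N → Prop
  | .one _ U => U ∈ unitaryGroup Bool ℂ
  | .tof c b => c.Nonempty ∧ b ∉ c

/-- The matrix of a gate (row index: output basis state, column index: input basis state). -/
noncomputable def Gate.mat : Gate N → Matrix (Fin N → Bool) (Fin N → Bool) ℂ
  | .one q U => of fun x y => if ∀ p, p ≠ q → x p = y p then U (x q) (y q) else 0
  | .tof c b => of fun x y =>
      if x = Function.update y b (xor (y b) (decide (∀ i ∈ c, y i = true))) then 1 else 0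

/-- A layer: well-formed gates with pairwise disjoint supports. -/
def LayerWF (L : List (Gate N)) : Prop :=
  (∀ g ∈ L, g.WF) ∧ L.Pairwise fun g g' => Disjoint g.supp g'.supp

/-- The matrix of a circuit, given as its list of layers; the head of the list acts first. -/
noncomputable def run : List (List (Gate N)) → Matrix (Fin N → Bool) (Fin N → Bool) ℂ
  | [] => 1
  | L :: C => run C * (L.map Gate.mat).prod

/-- The parity of a bit string. -/
def par {n : ℕ} (x : Fin n → Bool) : Bool := decide (Odd (Finset.univ.filter fun i => x i = true).card)

/-- The probability that measuring qubit `o` gives `b`, on input `x` with `a` ancillas in state zero. -/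
noncomputable def prob {n a : ℕ} (C : List (List (Gate (n + a)))) (o : Fin (n + a))
    (x : Fin n → Bool) (b : Bool) : ℝ :=
  ∑ y : Fin (n + a) → Bool, if y o = b then ‖run C y (Fin.append x fun _ => false)‖ ^ 2 else 0

/-- The parity correlation: the average of (probability correct) minus (probability wrong). -/
noncomputable def corr {n a : ℕ} (C : List (List (Gate (n + a)))) (o : Fin (n + a)) : ℝ :=
  (∑ x : Fin n → Bool, (prob C o x (par x) - prob C o x (!par x))) / 2 ^ n

end Vale.Agent.P368
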