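import Vale.Agent.P368.Nrm

/-! Job EX: conjugating a local operator by a layer. -/

namespace Vale.Agent.P368

open Matrix
open scoped Matrix.Norms.L2Operator

variable {ι : Type} [Fintype ι] [DecidableEq ι]

namespace EX

omit [Fintype ι] [DecidableEq ι] in
lemma cnt_zero (J : Finset ι) (y : ι → Bool) :
    cnt J (fun _ => true) y = 0 ↔ ∀ i ∈ J, y i = true := by
  simp [cnt, Finset.filter_eq_empty_iff]

lemma dg_prod (K : Finset ι) : (dg fun x : ι → Bool => ∀ i ∈ K, x i = true) =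
    prodM fun i => diagonal fun b => if i ∈ K → b = true then 1 else 0 := by
  rw [prodM_diagonal, dg]
  congr 1
  funext x
  rw [Finset.prod_ite_zero]
  simp

lemma mono_cut {z : ℕ} {S : Finset ι} {f : ι → Matrix Bool Bool ℂ} (hS : S.card ≤ z)
    (hf : ∀ i ∉ S, f i = 1) (hn : ‖prodM f‖ ≤ 1) {K K' : Finset ι} (hK : K ⊆ S) (hK' : K' ⊆ S) :
    Mono z ((dg fun x : ι → Bool => ∀ i ∈ K, x i = true) * prodM f *
      dg fun x : ι → Bool => ∀ i ∈ K', x i = true) := by
  refine ⟨S, fun i => (diagonal fun b => if i ∈ K → b = true then 1 else 0) * f i *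
    diagonal fun b => if i ∈ K' → b = true then 1 else 0, hS, fun i hi => ?_, ?_, ?_⟩
  · have h1 : i ∉ K := fun h => hi (hK h)
    have h2 : i ∉ K' := fun h => hi (hK' h)
    simp [h1, h2, hf i hi]
  · rw [dg_prod, dg_prod, prodM_mul, prodM_mul]
  · refine (norm_mul_le _ _).trans (mul_le_one₀ ?_ (norm_nonneg _) (norm_dg_le _))
    exact (norm_mul_le _ _).trans (mul_le_one₀ (norm_dg_le _) (norm_nonneg _) hn)

lemma prod_expand (T : Finset (Finset ι)) (x : ι → Bool) :
    ∏ g ∈ T, (1 - 2 * if ∀ i ∈ g, x i = true then (1 : ℂ) else 0) =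
      ∑ A ∈ T.powerset, (-2 : ℂ) ^ A.card *
        if ∀ i ∈ A.biUnion id, x i = true then (1 : ℂ) else 0 := by
  have h1 : ∀ g ∈ T, (1 - 2 * if ∀ i ∈ g, x i = true then (1 : ℂ) else 0) =
      1 + (-2) * if ∀ i ∈ g, x i = true then (1 : ℂ) else 0 := fun g _ => by ring
  rw [Finset.prod_congr rfl h1, Finset.prod_one_add]
  refine Finset.sum_congr rfl fun A _ => ?_
  rw [Finset.prod_mul_distrib, Finset.prod_const, Finset.prod_ite_zero, Finset.prod_const_one]
  have h2 : (∀ g ∈ A, ∀ i ∈ g, x i = true) ↔ ∀ i ∈ A.biUnion id, x i = true := by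
    simp only [Finset.mem_biUnion, id]
    exact ⟨fun h i ⟨g, hg, hi⟩ => h g hg i hi, fun h g hg i hi => h i ⟨g, hg, hi⟩⟩
  by_cases h3 : ∀ i ∈ A.biUnion id, x i = true
  · rw [if_pos h3, if_pos (h2.2 h3)]
  · rw [if_neg h3, if_neg fun h4 => h3 (h2.1 h4)]

omit [Fintype ι] in
lemma card_meet {G : Finset (Finset ι)} (hG : ∀ g ∈ G, ∀ g' ∈ G, g ≠ g' → Disjoint g g')
    (S : Finset ι) : (G.filter fun g => ¬ Disjoint g S).card ≤ S.card := by
  have h1 : (G.filter fun g => ¬ Disjoint g S) ⊆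
      S.biUnion fun i => G.filter fun g => i ∈ g := by
    intro g hg
    obtain ⟨a1, a2⟩ := Finset.mem_filter.1 hg
    obtain ⟨i, b1, b2⟩ := Finset.not_disjoint_iff.1 a2
    exact Finset.mem_biUnion.2 ⟨i, b2, Finset.mem_filter.2 ⟨a1, b1⟩⟩
  refine (Finset.card_le_card h1).trans (Finset.card_biUnion_le.trans ?_)
  rw [Finset.card_eq_sum_ones S]
  refine Finset.sum_le_sum fun i _ => Finset.card_le_one.2 fun g hg g' hg' => ?_
  obtain ⟨a1, a2⟩ := Finset.mem_filter.1 hg
  obtain ⟨b1, b2⟩ := Finset.mem_filter.1 hg'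
  by_contra hne
  exact Finset.disjoint_left.1 (hG g a1 g' b1 hne) a2 b2

lemma prod_pair (G : Finset (Finset ι)) (S : Finset ι) {x y : ι → Bool}
    (h : ∀ i ∉ S, x i = y i) :
    (∏ g ∈ G, (1 - 2 * if ∀ i ∈ g, x i = true then (1 : ℂ) else 0)) *
      (∏ g ∈ G, (1 - 2 * if ∀ i ∈ g, y i = true then (1 : ℂ) else 0)) =
    (∏ g ∈ G.filter fun g => ¬ Disjoint g S,
        (1 - 2 * if ∀ i ∈ g, x i = true then (1 : ℂ) else 0)) *
      (∏ g ∈ G.filter fun g => ¬ Disjoint g S,
        (1 - 2 * if ∀ i ∈ g, y i = true then (1 : ℂ) else 0)) := by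
  rw [← Finset.prod_mul_distrib, ← Finset.prod_mul_distrib, Finset.prod_filter]
  refine Finset.prod_congr rfl fun g _ => ?_
  by_cases hd : Disjoint g S
  · rw [if_neg (not_not.2 hd)]
    have h1 : (∀ i ∈ g, x i = true) ↔ ∀ i ∈ g, y i = true :=
      forall₂_congr fun i hi => by rw [h i (Finset.disjoint_left.1 hd hi)]
    by_cases h2 : ∀ i ∈ g, y i = true
    · rw [if_pos h2, if_pos (h1.2 h2)]
      norm_num
    · rw [if_neg h2, if_neg fun h3 => h2 (h1.1 h3)]
      norm_num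
  · rw [if_pos hd]

omit [Fintype ι] in
lemma ind_split (S U U' : Finset ι) {x y : ι → Bool} (h : ∀ i ∉ S, x i = y i) :
    ((∀ i ∈ U, x i = true) ∧ ∀ i ∈ U', y i = true) ↔
      ((∀ i ∈ U ∩ S, x i = true) ∧ (∀ i ∈ U' ∩ S, y i = true) ∧
        ∀ i ∈ (U ∪ U') \ S, y i = true) := by
  simp only [Finset.mem_inter, Finset.mem_sdiff, Finset.mem_union]
  constructor
  · rintro ⟨h1, h2⟩
    refine ⟨fun i hi => h1 i hi.1, fun i hi => h2 i hi.1, fun i hi => ?_⟩
    rcases hi.1 with h3 | h3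
    · rw [← h i hi.2]
      exact h1 i h3
    · exact h2 i h3
  · rintro ⟨h1, h2, h3⟩
    refine ⟨fun i hi => ?_, fun i hi => ?_⟩
    · by_cases hs : i ∈ S
      · exact h1 i ⟨hi, hs⟩
      · rw [h i hs]
        exact h3 i ⟨Or.inl hi, hs⟩
    · by_cases hs : i ∈ S
      · exact h2 i ⟨hi, hs⟩
      · exact h3 i ⟨Or.inr hi, hs⟩

omit [Fintype ι] [DecidableEq ι] in
lemma weight (T : Finset (Finset ι)) :
    ∑ A ∈ T.powerset, (2 : ℝ) ^ A.card = 3 ^ T.card := by
  have h := Finset.prod_one_add (f := fun _ : Finset ι => (2 : ℝ)) T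
  simp only [Finset.prod_const] at h
  rw [← h]
  norm_num

end EX

theorem layer_expand {z : ℕ} {M Z : Op ι} (hM : Mono z M) (hZ : IsLay Z) :
    ∃ (κ : Type) (_ : Fintype κ) (c : κ → ℂ) (M' : κ → Op ι) (J : κ → Finset ι),
      (∀ k, Mono z (M' k)) ∧ ∑ k, ‖c k‖ ≤ 9 ^ z ∧
      Z * M * Zᴴ = ∑ k, c k • (M' k * dg fun y => cnt (J k) (fun _ => true) y = 0) := by
  obtain ⟨S, f, hS, hf, rfl, hn⟩ := hM
  obtain ⟨G, hG, rfl⟩ := hZ
  set T := G.filter fun g => ¬ Disjoint g S with hT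
  have hTc : T.card ≤ z := (EX.card_meet hG S).trans hS
  refine ⟨T.powerset × T.powerset, inferInstance,
    fun k => (-2 : ℂ) ^ k.1.1.card * (-2 : ℂ) ^ k.2.1.card,
    fun k => (dg fun x : ι → Bool => ∀ i ∈ k.1.1.biUnion id ∩ S, x i = true) * prodM f *
      dg fun x : ι → Bool => ∀ i ∈ k.2.1.biUnion id ∩ S, x i = true,
    fun k => (k.1.1.biUnion id ∪ k.2.1.biUnion id) \ S,
    fun k => EX.mono_cut hS hf hn Finset.inter_subset_right Finset.inter_subset_right, ?_, ?_⟩
  · have h1 : ∑ A : T.powerset, (2 : ℝ) ^ A.1.card = 3 ^ T.card := by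
      rw [Finset.sum_coe_sort T.powerset fun A => (2 : ℝ) ^ A.card, EX.weight]
    simp only [norm_mul, norm_pow, norm_neg, Complex.norm_ofNat]
    rw [Fintype.sum_prod_type]
    dsimp only
    rw [← Fintype.sum_mul_sum, h1, ← mul_pow]
    norm_num
    exact pow_le_pow_right₀ (by norm_num) hTc
  · rw [cz_star]
    ext x y
    simp only [cz, dg, Matrix.sum_apply, Matrix.smul_apply, mul_diagonal, diagonal_mul,
      smul_eq_mul, EX.cnt_zero]
    by_cases h0 : prodM f x y = 0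
    · simp [h0]
    have hxy : ∀ i ∉ S, x i = y i := fun i hi => prodM_ne_zero h0 (hf i hi)
    rw [mul_right_comm, EX.prod_pair G S hxy, ← hT, EX.prod_expand, EX.prod_expand,
      ← Finset.sum_coe_sort T.powerset, ← Finset.sum_coe_sort T.powerset, Fintype.sum_mul_sum,
      Fintype.sum_prod_type, Finset.sum_mul]
    refine Finset.sum_congr rfl fun A _ => ?_
    rw [Finset.sum_mul]
    refine Finset.sum_congr rfl fun B _ => ?_
    have h1 := EX.ind_split S (A.1.biUnion id) (B.1.biUnion id) hxy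
    by_cases a1 : ∀ i ∈ A.1.biUnion id, x i = true
    · by_cases a2 : ∀ i ∈ B.1.biUnion id, y i = true
      · obtain ⟨b1, b2, b3⟩ := h1.1 ⟨a1, a2⟩
        rw [if_pos a1, if_pos a2, if_pos b1, if_pos b2, if_pos b3]
        ring
      · rw [if_neg a2]
        split_ifs with b1 b2 b3
        all_goals first
          | exact absurd (h1.2 ⟨by assumption, by assumption, by assumption⟩).2 a2
          | ring
    · rw [if_neg a1]
      split_ifs
      all_goals first
        | exact absurd (h1.2 ⟨by assumption, by assumption, by assumption⟩).1 a1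
        | ring

end Vale.Agent.P368
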