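import Vale.Agent.P368.Loc
import Vale.Agent.P368.Boot
import Mathlib.Analysis.SpecificLimits.Normed

/-! Job IT: induction on the depth. -/

namespace Vale.Agent.P368

open Matrix
open scoped Matrix.Norms.L2Operator

namespace Iter

lemma pow_le_two_pow (k : ℕ) : ∃ b₀ : ℕ, ∀ b ≥ b₀, b ^ k ≤ 2 ^ b := by
  have h := (tendsto_pow_const_div_const_pow_of_one_lt k (r := 2) (by norm_num)).eventually
    (eventually_le_nhds (show (0 : ℝ) < 1 by norm_num))
  obtain ⟨b₀, hb⟩ := Filter.eventually_atTop.1 h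
  refine ⟨b₀, fun b hb' => ?_⟩
  have h1 := hb b hb'
  rw [div_le_one (by positivity)] at h1
  exact_mod_cast h1

lemma exists_root (t B : ℕ) (ht : 1 ≤ t) : ∃ b, b ^ t ≤ B ∧ B < (b + 1) ^ t := by
  have hex : ∃ b, B < (b + 1) ^ t :=
    ⟨B, lt_of_lt_of_le (Nat.lt_succ_self B) (Nat.le_self_pow (by omega) _)⟩
  classical
  refine ⟨Nat.find hex, ?_, Nat.find_spec hex⟩
  rcases Nat.eq_zero_or_pos (Nat.find hex) with h | h
  · rw [h, zero_pow (by omega)]; exact Nat.zero_le _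
  · have h1 := Nat.find_min hex (m := Nat.find hex - 1) (by omega)
    rw [Nat.sub_add_cancel h] at h1
    exact not_lt.1 h1

end Iter

open Iter in
theorem locl_all (d e : ℕ) : ∃ B₀, ∀ B ≥ B₀, ∀ (ι : Type) [Fintype ι] [DecidableEq ι],
    Fintype.card ι < B ^ e → ∃ Γ, 1 ≤ Γ ∧ Γ ≤ B ∧ Locl ι d Γ := by
  induction d generalizing e with
  | zero => exact ⟨2, fun B hB ι _ _ _ => ⟨2, by norm_num, hB, locl_zero⟩⟩
  | succ d ih =>
    obtain ⟨i, hi⟩ : ∃ i, i = 6 * e + 1 := ⟨_, rfl⟩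
    obtain ⟨t, ht⟩ : ∃ t, t = 11 * i := ⟨_, rfl⟩
    obtain ⟨b₁, h₁⟩ := ih (2 * t * e)
    obtain ⟨b₂, h₂⟩ := pow_le_two_pow (2 * t * e)
    refine ⟨(b₁ + b₂ + 6) ^ t, fun B hB ι _ _ hc => ?_⟩
    obtain ⟨b, hb1, hb2⟩ := exists_root t B (by omega)
    have hb : b₁ + b₂ + 6 < b + 1 := lt_of_pow_lt_pow_left₀ t (Nat.zero_le _) (lt_of_le_of_lt hB hb2)
    have hb6 : 6 ≤ b := by omega
    have hsq : b + 12 ≤ b ^ 2 := by nlinarith
    have hB2 : B ≤ b ^ (2 * t) := by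
      rw [pow_mul]
      exact hb2.le.trans (Nat.pow_le_pow_left (by omega) t)
    have hc' : Fintype.card ι < b ^ (2 * t * e) := by
      rw [pow_mul]
      exact lt_of_lt_of_le hc (Nat.pow_le_pow_left hB2 e)
    obtain ⟨Γ, hΓ1, hΓb, hΓ⟩ := h₁ b (by omega) ι hc'
    have hN : Fintype.card ι + 1 ≤ 2 ^ b := le_trans hc' (h₂ b (by omega))
    have hD : 2 * Γ * ((b + 3) ^ 2 + 1) < b ^ 4 := by
      have h1 : 2 * ((b + 3) ^ 2 + 1) < b ^ 3 := by
        have : 6 * b ^ 2 ≤ b ^ 3 := by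
          calc 6 * b ^ 2 ≤ b * b ^ 2 := Nat.mul_le_mul_right _ hb6
            _ = b ^ 3 := by ring
        nlinarith
      calc 2 * Γ * ((b + 3) ^ 2 + 1) = Γ * (2 * ((b + 3) ^ 2 + 1)) := by ring
        _ ≤ b * (2 * ((b + 3) ^ 2 + 1)) := Nat.mul_le_mul_right _ hΓb
        _ < b * b ^ 3 := Nat.mul_lt_mul_of_pos_left h1 (by omega)
        _ = b ^ 4 := by ring
    have hi2 : Fintype.card ι < (b ^ 4) ^ (i ^ 2) := by
      rw [← pow_mul]
      refine lt_of_lt_of_le hc' (Nat.pow_le_pow_right (by omega) ?_)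
      rw [ht]
      have : 22 * e ≤ 4 * i := by omega
      nlinarith
    have hT := boot hΓ hΓ1 hN hD hi2
    refine ⟨_, ?_, ?_, locl_succ hN hT hΓ⟩
    · exact Nat.mul_pos hΓ1 (by omega)
    · have hρ : 1 ≤ (b ^ 4) ^ (2 * i) := Nat.one_le_pow _ _ (by positivity)
      calc Γ * ((b ^ 4) ^ (2 * i) * (b + 6) + 6) ≤ b * ((b ^ 4) ^ (2 * i) * b ^ 2) := by
            refine Nat.mul_le_mul hΓb ?_
            calc (b ^ 4) ^ (2 * i) * (b + 6) + 6
                ≤ (b ^ 4) ^ (2 * i) * (b + 6) + (b ^ 4) ^ (2 * i) * 6 := by omega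
              _ = (b ^ 4) ^ (2 * i) * (b + 12) := by ring
              _ ≤ _ := Nat.mul_le_mul_left _ hsq
        _ = b ^ (8 * i + 3) := by ring
        _ ≤ b ^ t := Nat.pow_le_pow_right (by omega) (by omega)
        _ ≤ B := hb1

end Vale.Agent.P368
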