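import Vale.Agent.P368.Nrm

/-! Job LI: from the vacuum to few excitations. -/

namespace Vale.Agent.P368

open Matrix
open scoped Matrix.Norms.L2Operator

variable {ι : Type} [Fintype ι] [DecidableEq ι]

namespace LI

/-- flip the bits in `T` -/
def flp (T : Finset ι) (v : ι → Bool) : ι → Bool := fun i => if i ∈ T then !v i else v i

theorem card_small (a : ℕ) :
    (Finset.univ.filter fun T : Finset ι => T.card ≤ a).card ≤ (Fintype.card ι + 1) ^ a := by
  induction a with
  | zero =>
    rw [pow_zero, Finset.card_le_one]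
    intro T hT T' hT'
    rw [Finset.mem_filter, Nat.le_zero, Finset.card_eq_zero] at hT hT'
    rw [hT.2, hT'.2]
  | succ a ih =>
    have hsub : (Finset.univ.filter fun T : Finset ι => T.card ≤ a + 1) ⊆
        ((Finset.univ : Finset (Option ι)) ×ˢ
          Finset.univ.filter fun T : Finset ι => T.card ≤ a).image
          fun p => p.1.elim p.2 fun i => insert i p.2 := by
      intro T hT
      rcases T.eq_empty_or_nonempty with rfl | ⟨i, hi⟩
      · exact Finset.mem_image.mpr ⟨(none, ∅), by simp, rfl⟩
      · refine Finset.mem_image.mpr ⟨(some i, T.erase i), ?_, Finset.insert_erase hi⟩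
        have h1 := (Finset.mem_filter.mp hT).2
        have h2 := Finset.card_erase_add_one hi
        refine Finset.mem_product.mpr ⟨Finset.mem_univ _,
          Finset.mem_filter.mpr ⟨Finset.mem_univ _, ?_⟩⟩
        show (T.erase i).card ≤ a
        omega
    refine (Finset.card_le_card hsub).trans (Finset.card_image_le.trans ?_)
    rw [Finset.card_product, Finset.card_univ, Fintype.card_option, pow_succ']
    exact Nat.mul_le_mul_left _ ih

omit [Fintype ι] in
theorem cnt_flp_zero {S T : Finset ι} (hT : T ⊆ S) (v y : ι → Bool) :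
    cnt S (flp T v) y = 0 ↔ T = S.filter fun i => y i ≠ v i := by
  rw [cnt, Finset.card_eq_zero, Finset.filter_eq_empty_iff]
  constructor
  · intro h
    ext i
    rw [Finset.mem_filter]
    by_cases hi : i ∈ T
    · have := h (hT hi)
      simp only [flp, if_pos hi, ne_eq, not_not] at this
      simp [hi, hT hi, this]
    · refine ⟨fun h' => absurd h' hi, fun h' => ?_⟩
      have := h h'.1
      simp only [flp, if_neg hi] at this
      exact absurd h'.2 this
  · intro h i hi
    rw [h]
    by_cases h' : y i = v i
    · simp [flp, h']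
    · simp only [flp, Finset.mem_filter, hi, ne_eq, h', not_false_eq_true, and_self, if_true,
        not_not]
      exact Bool.eq_not_iff.mpr h'

omit [Fintype ι] in
theorem cnt_le (S T : Finset ι) (v y : ι → Bool) : cnt S v y ≤ cnt S (flp T v) y + T.card := by
  unfold cnt
  refine le_trans (Finset.card_le_card fun i hi => ?_) (Finset.card_union_le _ _)
  rw [Finset.mem_filter] at hi
  by_cases h : i ∈ T
  · exact Finset.mem_union_right _ h
  · refine Finset.mem_union_left _ (Finset.mem_filter.mpr ⟨hi.1, ?_⟩)
    rw [flp, if_neg h]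
    exact hi.2

theorem dg_le_eq (S : Finset ι) (v : ι → Bool) (a : ℕ) :
    dg (fun y => cnt S v y ≤ a) = ∑ T ∈ S.powerset.filter fun T => T.card ≤ a,
      dg fun y => cnt S (flp T v) y = 0 := by
  ext x y
  rw [Matrix.sum_apply]
  by_cases hxy : x = y
  · subst hxy
    simp only [dg, diagonal_apply_eq]
    rw [Finset.sum_congr rfl fun T hT => if_congr
      (cnt_flp_zero (Finset.mem_powerset.mp (Finset.mem_filter.mp hT).1) v x) rfl rfl,
      Finset.sum_ite_eq']
    refine if_congr ?_ rfl rfl
    rw [Finset.mem_filter, Finset.mem_powerset]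
    exact ⟨fun h => ⟨Finset.filter_subset _ _, h⟩, fun h => h.2⟩
  · simp only [dg, diagonal_apply_ne _ hxy, Finset.sum_const_zero]

end LI

theorem Tail.lift {d x L : ℕ} (h : Tail ι d x L) {W : Op ι} (hW : Cir d W) (S : Finset ι)
    (v : ι → Bool) (J : Finset ι) (u : ι → Bool) (a : ℕ) :
    ‖dg (fun y => x + a ≤ cnt S v y) * (W * dg (fun y => cnt J u y = 0) * Wᴴ) *
      dg (fun y => cnt S v y ≤ a)‖ ≤ (Fintype.card ι + 1) ^ a * (1 / 2) ^ L := by
  rw [LI.dg_le_eq, Finset.mul_sum]
  refine (norm_sum_le _ _).trans ((Finset.sum_le_card_nsmul _ _ ((1 / 2 : ℝ) ^ L)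
    fun T hT => ?_).trans ?_)
  · refine le_trans (norm_dg_mono (fun y hy => ?_) (fun _ hy => hy) _) (h W hW S (LI.flp T v) J u)
    have h1 := LI.cnt_le S T v y
    have h2 := (Finset.mem_filter.mp hT).2
    omega
  · rw [nsmul_eq_mul]
    refine mul_le_mul_of_nonneg_right ?_ (by positivity)
    have h1 : (S.powerset.filter fun T => T.card ≤ a).card ≤ (Fintype.card ι + 1) ^ a :=
      (Finset.card_le_card (Finset.filter_subset_filter _ (Finset.subset_univ _))).trans
        (LI.card_small a)
    exact_mod_cast h1

end Vale.Agent.P368
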