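import Vale.Agent.P368.Lift
import Vale.Agent.P368.Expand

/-! Job LO: locality through one more layer. -/

namespace Vale.Agent.P368

open Matrix
open scoped Matrix.Norms.L2Operator

variable {ι : Type} [Fintype ι] [DecidableEq ι]

theorem locl_zero : Locl ι 0 2 := by
  intro z _ W hW M hM S v
  cases hW with
  | base hU =>
    obtain ⟨T, f, hT, hf, e, -⟩ := hM.conj hU
    have h0 : dg (fun y => 2 * z < cnt S v y) * (W * M * Wᴴ) * dg (fun y => cnt S v y ≤ z) = 0 := by
      ext x y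
      rw [e, dg, dg, mul_diagonal, diagonal_mul, Matrix.zero_apply]
      by_cases h1 : prodM f x y = 0
      · rw [h1, mul_zero, zero_mul]
      · have h2 : cnt S v x ≤ cnt S v y + T.card := by
          unfold cnt
          refine le_trans (Finset.card_le_card fun i hi => ?_) (Finset.card_union_le _ _)
          rw [Finset.mem_filter] at hi
          by_cases h : i ∈ T
          · exact Finset.mem_union_right _ h
          · refine Finset.mem_union_left _ (Finset.mem_filter.mpr ⟨hi.1, ?_⟩)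
            rw [← prodM_ne_zero h1 (hf i h)]
            exact hi.2
        by_cases h3 : cnt S v y ≤ z
        · rw [if_neg (show ¬ 2 * z < cnt S v x by omega), zero_mul, zero_mul]
        · rw [if_neg h3, mul_zero]
    rw [h0, norm_zero]
    positivity

namespace LO

theorem term {d Γ ρ lam : ℕ} (hN : Fintype.card ι + 1 ≤ 2 ^ lam)
    (hT : ∀ L, Tail ι d (ρ * L) L) (h : Locl ι d Γ) {z : ℕ} (hz : 1 ≤ z) {W M : Op ι}
    (hW : Cir d W) (hM : Mono z M) (S : Finset ι) (v : ι → Bool) (J : Finset ι) (u : ι → Bool) :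
    ‖dg (fun y => Γ * (ρ * (lam + 6) + 6) * z < cnt S v y) *
      (W * (M * dg fun y => cnt J u y = 0) * Wᴴ) * dg (fun y => cnt S v y ≤ z)‖ ≤
      2 * (1 / 2) ^ (6 * z) := by
  have hU := hW.unitary
  have h1 : Wᴴ * W = 1 := (Unitary.mem_iff.mp hU).1
  have e : W * (M * dg fun y => cnt J u y = 0) * Wᴴ =
      W * M * Wᴴ * (W * dg (fun y => cnt J u y = 0) * Wᴴ) := by
    calc W * (M * dg fun y => cnt J u y = 0) * Wᴴ
        = W * M * (Wᴴ * W) * dg (fun y => cnt J u y = 0) * Wᴴ := by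
          rw [h1, Matrix.mul_one, Matrix.mul_assoc W M]
      _ = _ := by simp only [Matrix.mul_assoc]
  have hM1 : ‖M‖ ≤ 1 := by
    obtain ⟨_, _, _, _, _, h⟩ := hM
    exact h
  have e6 : (ρ * (lam + 6) + 6) * z = ρ * ((lam + 6) * z) + 6 * z := by ring
  rw [e]
  refine (norm_split (norm_dg_le _) ((norm_conj hU M).le.trans hM1)
    ((norm_conj hU _).le.trans (norm_dg_le _)) (norm_dg_le _)
    (fun y => cnt S v y ≤ (ρ * (lam + 6) + 6) * z) (fun y => (ρ * (lam + 6) + 6) * z < cnt S v y)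
    fun _ => not_le.symm).trans ?_
  rw [two_mul]
  refine add_le_add ?_ ?_
  · refine le_trans (norm_dg_mono (fun y hy => ?_) (fun _ hy => hy) _)
      ((h ((ρ * (lam + 6) + 6) * z) (by omega) W hW M (hM.mono (by omega)) S v).trans ?_)
    · rw [← mul_assoc]; exact hy
    · exact pow_le_pow_of_le_one (by norm_num) (by norm_num) (by omega)
  · refine le_trans (norm_dg_mono (fun y hy => ?_) (fun _ hy => hy) _)
      (((hT ((lam + 6) * z)).lift hW S v J u z).trans ?_)
    · omega
    · have h2 : ((Fintype.card ι : ℝ) + 1) ≤ 2 ^ lam := by exact_mod_cast hN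
      calc ((Fintype.card ι : ℝ) + 1) ^ z * (1 / 2) ^ ((lam + 6) * z)
          ≤ (2 ^ lam) ^ z * (1 / 2) ^ ((lam + 6) * z) := by gcongr
        _ = (2 * (1 / 2)) ^ (lam * z) * (1 / 2) ^ (6 * z) := by
          rw [add_mul, pow_add, mul_pow, ← pow_mul, mul_assoc]
        _ = _ := by norm_num

end LO

theorem locl_succ {d Γ ρ lam : ℕ} (hN : Fintype.card ι + 1 ≤ 2 ^ lam)
    (hT : ∀ L, Tail ι d (ρ * L) L) (h : Locl ι d Γ) :
    Locl ι (d + 1) (Γ * (ρ * (lam + 6) + 6)) := by
  intro z hz W hW M hM S v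
  cases hW with
  | @step _ W' Z U hW' hZ hU =>
    obtain ⟨κ, _, c, M', J, hM', hc, e⟩ := layer_expand (hM.conj hU) hZ
    have e1 : W' * Z * U * M * (W' * Z * U)ᴴ = W' * (Z * (U * M * Uᴴ) * Zᴴ) * W'ᴴ := by
      simp only [conjTranspose_mul, Matrix.mul_assoc]
    rw [e1, e]
    simp only [Finset.mul_sum, Finset.sum_mul, Matrix.mul_smul, Matrix.smul_mul]
    refine (norm_sum_le _ _).trans ((Finset.sum_le_sum
      (g := fun k => ‖c k‖ * (2 * (1 / 2) ^ (6 * z))) fun k _ => ?_).trans ?_)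
    · rw [norm_smul]
      exact mul_le_mul_of_nonneg_left (LO.term hN hT h hz hW' (hM' k) S v (J k) _) (norm_nonneg _)
    · rw [← Finset.sum_mul]
      have h1 : (9 / 32 : ℝ) ^ z ≤ 9 / 32 := pow_le_of_le_one (by norm_num) (by norm_num) (by omega)
      have h2 : (0 : ℝ) < (1 / 2) ^ z := by positivity
      calc (∑ k, ‖c k‖) * (2 * (1 / 2 : ℝ) ^ (6 * z)) ≤ 9 ^ z * (2 * (1 / 2 : ℝ) ^ (6 * z)) := by
            gcongr
        _ = 2 * (9 / 32) ^ z * (1 / 2) ^ z := by
            rw [pow_mul, mul_left_comm, mul_assoc, ← mul_pow, ← mul_pow]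
            norm_num
        _ ≤ _ := by nlinarith

end Vale.Agent.P368
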