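import Vale.Agent.P368.Alg

/-! Job NO: norms, local operators and their combinations. -/

namespace Vale.Agent.P368

open Matrix
open scoped Matrix.Norms.L2Operator

variable {ι : Type} [Fintype ι] [DecidableEq ι]

lemma NO.norm2 {X Y : Op ι} (hX : ‖X‖ ≤ 1) (hY : ‖Y‖ ≤ 1) : ‖X * Y‖ ≤ 1 :=
  (norm_mul_le _ _).trans (mul_le_one₀ hX (norm_nonneg _) hY)
lemma NO.norm3 {A X B : Op ι} (hA : ‖A‖ ≤ 1) (hB : ‖B‖ ≤ 1) : ‖A * X * B‖ ≤ ‖X‖ :=
  (norm_mul_le _ _).trans ((mul_le_of_le_one_right (norm_nonneg _) hB).trans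
    ((norm_mul_le _ _).trans (mul_le_of_le_one_left (norm_nonneg _) hA)))
lemma norm_unitary_le {U : Op ι} (h : U ∈ unitary (Op ι)) : ‖U‖ ≤ 1 := (CStarRing.norm_of_mem_unitary h).le
lemma norm_conj {U : Op ι} (h : U ∈ unitary (Op ι)) (X : Op ι) : ‖U * X * Uᴴ‖ = ‖X‖ := by
  rw [← star_eq_conjTranspose, CStarRing.norm_mul_mem_unitary _ (Unitary.star_mem h),
    CStarRing.norm_mem_unitary_mul _ h]
lemma norm_diagonal_le {f : (ι → Bool) → ℂ} {K : ℝ} (hK : 0 ≤ K) (h : ∀ x, ‖f x‖ ≤ K) :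
    ‖(diagonal f : Op ι)‖ ≤ K := by
  rw [l2_opNorm_diagonal]
  exact (pi_norm_le_iff_of_nonneg hK).2 h
lemma norm_dg_le (p : (ι → Bool) → Prop) [DecidablePred p] : ‖dg p‖ ≤ 1 :=
  norm_diagonal_le zero_le_one fun x => by split_ifs <;> simp
lemma norm_entry_le (X : Op ι) (x y : ι → Bool) : ‖X x y‖ ≤ ‖X‖ := by
  have h := l2_opNorm_mulVec X (EuclideanSpace.single y (1 : ℂ))
  rw [EuclideanSpace.norm_single, norm_one, mul_one] at h
  refine le_trans ?_ h
  refine le_trans (le_of_eq ?_) (PiLp.norm_apply_le _ x)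
  simp
lemma dg_star (p : (ι → Bool) → Prop) [DecidablePred p] : (dg p)ᴴ = dg p := by
  rw [dg, diagonal_conjTranspose]
  congr 1
  funext x
  simp only [Pi.star_apply]
  split_ifs <;> simp
lemma dg_mul_dg (p q : (ι → Bool) → Prop) [DecidablePred p] [DecidablePred q] :
    dg p * dg q = dg fun x => p x ∧ q x := by
  rw [dg, dg, dg, diagonal_mul_diagonal]
  congr 1
  funext x
  by_cases hp : p x <;> by_cases hq : q x <;> simp [hp, hq]
/-- Shrinking the projections does not increase the norm. -/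
lemma norm_dg_mono {p p' q q' : (ι → Bool) → Prop} [DecidablePred p] [DecidablePred p']
    [DecidablePred q] [DecidablePred q'] (hp : ∀ x, p x → p' x) (hq : ∀ x, q x → q' x) (X : Op ι) :
    ‖dg p * X * dg q‖ ≤ ‖dg p' * X * dg q'‖ := by
  have e1 : dg p = dg p * dg p' := by
    rw [dg, dg, diagonal_mul_diagonal]
    congr 1
    funext x
    by_cases h : p x
    · simp [h, hp x h]
    · simp [h]
  have e2 : dg q = dg q' * dg q := by
    rw [dg, dg, diagonal_mul_diagonal]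
    congr 1
    funext x
    by_cases h : q x
    · simp [h, hq x h]
    · simp [h]
  have e3 : dg p * X * dg q = dg p * (dg p' * X * dg q') * dg q := by
    calc dg p * X * dg q = (dg p * dg p') * X * (dg q' * dg q) := by rw [← e1, ← e2]
      _ = _ := by simp only [mul_assoc]
  rw [e3]
  exact NO.norm3 (norm_dg_le p) (norm_dg_le q)
/-- Inserting a resolution of the identity. -/
lemma norm_split {E X Y F : Op ι} (hE : ‖E‖ ≤ 1) (hX : ‖X‖ ≤ 1) (hY : ‖Y‖ ≤ 1) (hF : ‖F‖ ≤ 1)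
    (p q : (ι → Bool) → Prop) [DecidablePred p] [DecidablePred q] (h : ∀ x, q x ↔ ¬ p x) :
    ‖E * (X * Y) * F‖ ≤ ‖E * X * dg p‖ + ‖dg q * Y * F‖ := by
  have e1 : dg p + dg q = (1 : Op ι) := by
    rw [dg, dg, diagonal_add, ← diagonal_one]
    congr 1
    funext x
    by_cases hp : p x <;> simp [hp, h x]
  have e2 : E * (X * Y) * F = 1 * (E * X * dg p) * (Y * F) + (E * X) * (dg q * Y * F) * 1 := by
    calc E * (X * Y) * F = E * X * (dg p + dg q) * (Y * F) := by rw [e1]; simp only [mul_one, mul_assoc]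
      _ = _ := by simp only [mul_add, add_mul, mul_one, one_mul, mul_assoc]
  rw [e2]
  have h1 : ‖(1 : Op ι)‖ ≤ 1 := norm_unitary_le (one_mem _)
  exact (norm_add_le _ _).trans (add_le_add (NO.norm3 h1 (NO.norm2 hY hF))
    (NO.norm3 (NO.norm2 hE hX) h1))

lemma Mono.mono {m m' : ℕ} {M : Op ι} (h : Mono m M) (hm : m ≤ m') : Mono m' M := by
  obtain ⟨S, f, h1, h2⟩ := h
  exact ⟨S, f, h1.trans hm, h2⟩
lemma Mono.one : Mono 0 (1 : Op ι) :=
  ⟨∅, fun _ => 1, le_rfl, fun _ _ => rfl, prodM_one.symm, norm_unitary_le (one_mem _)⟩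
lemma Mono.mul {m m' : ℕ} {M M' : Op ι} (h : Mono m M) (h' : Mono m' M') :
    Mono (m + m') (M * M') := by
  obtain ⟨S, f, h1, h2, h3, h4⟩ := h
  obtain ⟨S', f', h1', h2', h3', h4'⟩ := h'
  refine ⟨S ∪ S', fun i => f i * f' i, (Finset.card_union_le _ _).trans (add_le_add h1 h1'),
    fun i hi => ?_, by rw [h3, h3', prodM_mul], NO.norm2 h4 h4'⟩
  rw [Finset.notMem_union] at hi
  simp only [h2 i hi.1, h2' i hi.2, mul_one]
lemma Mono.conj {m : ℕ} {M U : Op ι} (h : Mono m M) (hU : IsProd U) : Mono m (U * M * Uᴴ) := by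
  obtain ⟨S, f, h1, h2, h3, h4⟩ := h
  have hn := norm_conj hU.unitary M
  obtain ⟨g, hg, rfl⟩ := hU
  refine ⟨S, fun i => g i * f i * (g i)ᴴ, h1, fun i hi => ?_,
    by rw [h3, prodM_star, prodM_mul, prodM_mul], hn.trans_le h4⟩
  simp only [h2 i hi, mul_one]
  exact (Unitary.mem_iff.1 (hg i)).2
lemma mono_site (i : ι) (f : Bool → ℂ) (hf : ∀ b, ‖f b‖ ≤ 1) :
    Mono 1 (diagonal fun x : ι → Bool => f (x i)) := by
  refine ⟨{i}, fun j => diagonal fun b => if j = i then f b else 1, by simp, fun j hj => ?_, ?_,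
    norm_diagonal_le zero_le_one fun x => hf _⟩
  · rw [Finset.mem_singleton] at hj
    simp [hj]
  · rw [prodM_diagonal (fun j b => if j = i then f b else 1)]
    congr 1
    funext x
    rw [Finset.prod_eq_single i] <;> simp +contextual

lemma Dg.mono {m m' : ℕ} {Λ Λ' : ℝ} {F : Op ι} (h : Dg m Λ F) (hm : m ≤ m') (hΛ : Λ ≤ Λ') :
    Dg m' Λ' F := by
  obtain ⟨κ, hκ, c, M, h1, h2, h3⟩ := h
  exact ⟨κ, hκ, c, M, fun k => (h1 k).mono hm, h2.trans hΛ, h3⟩
lemma Dg.one : Dg 0 1 (1 : Op ι) :=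
  ⟨Unit, inferInstance, fun _ => 1, fun _ => 1, fun _ => Mono.one, by simp, by simp⟩
lemma Dg.add {m : ℕ} {Λ Λ' : ℝ} {F F' : Op ι} (h : Dg m Λ F) (h' : Dg m Λ' F') :
    Dg m (Λ + Λ') (F + F') := by
  obtain ⟨κ, hκ, c, M, h1, h2, h3⟩ := h
  obtain ⟨κ', hκ', c', M', h1', h2', h3'⟩ := h'
  refine ⟨κ ⊕ κ', inferInstance, Sum.elim c c', Sum.elim M M', fun k => ?_, ?_, ?_⟩
  · cases k with
    | inl k => exact h1 k
    | inr k => exact h1' k
  · rw [Fintype.sum_sum_type]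
    exact add_le_add h2 h2'
  · rw [Fintype.sum_sum_type, h3, h3']
    rfl
lemma Dg.smul {m : ℕ} {Λ : ℝ} {F : Op ι} (h : Dg m Λ F) (c : ℂ) : Dg m (‖c‖ * Λ) (c • F) := by
  obtain ⟨κ, hκ, c', M, h1, h2, h3⟩ := h
  refine ⟨κ, hκ, fun k => c * c' k, M, h1, ?_, ?_⟩
  · simp only [norm_mul, ← Finset.mul_sum]
    exact mul_le_mul_of_nonneg_left h2 (norm_nonneg _)
  · simp only [h3, Finset.smul_sum, smul_smul]
lemma Dg.mul {m m' : ℕ} {Λ Λ' : ℝ} {F F' : Op ι} (h : Dg m Λ F) (h' : Dg m' Λ' F') :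
    Dg (m + m') (Λ * Λ') (F * F') := by
  obtain ⟨κ, hκ, c, M, h1, h2, h3⟩ := h
  obtain ⟨κ', hκ', c', M', h1', h2', h3'⟩ := h'
  refine ⟨κ × κ', inferInstance, fun k => c k.1 * c' k.2, fun k => M k.1 * M' k.2,
    fun k => (h1 _).mul (h1' _), ?_, ?_⟩
  · simp only [Fintype.sum_prod_type, norm_mul, ← Finset.mul_sum, ← Finset.sum_mul]
    exact mul_le_mul h2 h2' (Finset.sum_nonneg fun _ _ => norm_nonneg _)
      ((Finset.sum_nonneg fun _ _ => norm_nonneg _).trans h2)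
  · simp only [h3, h3', Fintype.sum_prod_type, Finset.sum_mul_sum, smul_mul_smul_comm]
lemma dg_cnt (J : Finset ι) (u : ι → Bool) :
    Dg 1 (Fintype.card ι) (diagonal fun x => (cnt J u x : ℂ)) := by
  refine ⟨ι, inferInstance, fun i => if i ∈ J then 1 else 0,
    fun i => diagonal fun x : ι → Bool => (fun b => if b ≠ u i then (1 : ℂ) else 0) (x i),
    fun i => mono_site i (fun b => if b ≠ u i then (1 : ℂ) else 0) fun b => by
      split_ifs <;> simp, ?_, ?_⟩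
  · calc _ ≤ ∑ _i : ι, (1 : ℝ) := Finset.sum_le_sum fun i _ => by dsimp only; split_ifs <;> simp
      _ = _ := by simp
  · ext x y
    rw [Matrix.sum_apply]
    by_cases hxy : x = y
    · subst hxy
      simp only [diagonal_apply_eq, Matrix.smul_apply, smul_eq_mul, cnt, Finset.card_filter]
      push_cast
      simp only [ite_mul, one_mul, zero_mul, Finset.sum_ite_mem, Finset.univ_inter]
    · simp [diagonal_apply_ne _ hxy]
lemma Dg.bound {m : ℕ} {Λ β : ℝ} {F : Op ι} (h : Dg m Λ F) (hβ : 0 ≤ β) (A B : Op ι)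
    (hM : ∀ M, Mono m M → ‖A * M * B‖ ≤ β) : ‖A * F * B‖ ≤ Λ * β := by
  obtain ⟨κ, hκ, c, M, h1, h2, h3⟩ := h
  rw [h3, Finset.mul_sum, Finset.sum_mul]
  refine (norm_sum_le _ _).trans (le_trans ?_ (mul_le_mul_of_nonneg_right h2 hβ))
  rw [Finset.sum_mul]
  refine Finset.sum_le_sum fun k _ => ?_
  rw [mul_smul_comm, smul_mul_assoc, norm_smul]
  exact mul_le_mul_of_nonneg_left (hM _ (h1 k)) (norm_nonneg _)

end Vale.Agent.P368
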