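import Vale.Agent.P368.Circ
import Vale.Agent.P368.Nrm

/-! Job PA: the parity correlation. -/

namespace Vale.Agent.P368

open Matrix
open scoped Matrix.Norms.L2Operator

namespace PA

/-- The sign of a bit. -/
def sg (b : Bool) : ℂ := if b then -1 else 1
/-- The indicator of zero. -/
def p0 (b : Bool) : ℂ := if b then 0 else 1
/-- The Hadamard matrix. -/
noncomputable def hm : Matrix Bool Bool ℂ := of fun a b => (if a && b then -1 else 1) / (√2 : ℝ)
/-- The bit flip. -/
def xm : Matrix Bool Bool ℂ := of fun a b => if a = b then 0 else 1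

lemma s2 : ((√2 : ℝ) : ℂ) ^ 2 = 2 := by
  rw [← Complex.ofReal_pow, Real.sq_sqrt zero_le_two]; norm_num

lemma hm_star : hmᴴ = hm := by
  ext a b; cases a <;> cases b <;> simp [hm]

lemma hm_unitary : hm ∈ unitary (Matrix Bool Bool ℂ) := by
  have : hm * hm = 1 := by
    ext a b
    cases a <;> cases b <;> simp [hm, mul_apply, div_eq_mul_inv, ← sq, s2]
  constructor <;> rw [star_eq_conjTranspose, hm_star, this]

lemma hm_conj : hm * diagonal sg * hmᴴ = xm := by
  rw [hm_star]
  ext a b
  rw [mul_apply]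
  cases a <;> cases b <;> simp [hm, xm, sg, div_eq_mul_inv, ← sq, s2] <;> norm_num

lemma sg_par {n : ℕ} (x : Fin n → Bool) : sg (par x) = ∏ i, sg (x i) := by
  simp only [sg, par, Finset.prod_ite, Finset.prod_const_one, mul_one, Finset.prod_const,
    decide_eq_true_eq]
  split_ifs with h
  · exact h.neg_one_pow.symm
  · exact (Nat.not_odd_iff_even.mp h).neg_one_pow.symm

lemma sum_norm {ι : Type} [Fintype ι] [DecidableEq ι] (f : ι → Matrix Bool Bool ℂ) :
    ∑ x, ∑ y, ‖prodM f x y‖ = ∏ i, ∑ a, ∑ b, ‖f i a b‖ := by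
  simp only [prodM, of_apply, norm_prod, Finset.prod_univ_sum, Fintype.piFinset_univ]

lemma prob_sub {n a : ℕ} (C : List (List (Gate (n + a)))) (o : Fin (n + a)) (x : Fin n → Bool)
    (b : Bool) : ((prob C o x b - prob C o x (!b) : ℝ) : ℂ) = sg b *
      ((run C)ᴴ * diagonal (fun y : Fin (n + a) → Bool => sg (y o)) * run C) (Fin.append x fun _ => false)
        (Fin.append x fun _ => false) := by
  rw [mul_apply, prob, prob, ← Finset.sum_sub_distrib, Finset.mul_sum]
  push_cast
  refine Finset.sum_congr rfl fun y _ => ?_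
  rw [mul_diagonal, conjTranspose_apply, mul_right_comm, RCLike.star_def, Complex.conj_mul']
  cases b <;> cases y o <;> simp [sg]

lemma sum_diag {n a : ℕ} (A : Op (Fin (n + a))) : ∑ x : Fin n → Bool,
    sg (par x) * A (Fin.append x fun _ => false) (Fin.append x fun _ => false) =
      trace (prodM (fun i => diagonal (Fin.addCases (fun _ => sg) (fun _ => p0) i)) * A) := by
  rw [prodM_diagonal, trace]
  simp only [diag_apply, diagonal_mul]
  rw [← (Fin.appendEquiv n a).sum_comp, Fintype.sum_prod_type]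
  refine Finset.sum_congr rfl fun x _ => ?_
  rw [Finset.sum_eq_single fun _ => false]
  · simp [Fin.prod_univ_add, sg_par, p0, Fin.appendEquiv]
  · intro e _ he
    obtain ⟨j, hj⟩ : ∃ j, e j = true := by
      by_contra! h
      exact he (funext fun j => by simpa using h j)
    rw [Fin.prod_univ_add, Finset.prod_eq_zero (s := (Finset.univ : Finset (Fin a)))
      (Finset.mem_univ j) (by simp [p0, hj])]
    simp
  · simp

end PA

open PA

theorem prob_add {n a : ℕ} {C : List (List (Gate (n + a)))} (h : ∀ L ∈ C, LayerWF L)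
    (o : Fin (n + a)) (x : Fin n → Bool) (b : Bool) : prob C o x b + prob C o x (!b) = 1 := by
  have h1 : ((run C)ᴴ * run C) (Fin.append x fun _ => false) (Fin.append x fun _ => false) = 1 := by
    rw [show (run C)ᴴ * run C = 1 from (cir_run C h).unitary.1, one_apply_eq]
  apply Complex.ofReal_injective
  rw [Complex.ofReal_one, ← h1, mul_apply, prob, prob, ← Finset.sum_add_distrib]
  push_cast
  refine Finset.sum_congr rfl fun y _ => ?_
  rw [conjTranspose_apply, RCLike.star_def, Complex.conj_mul']
  cases b <;> cases y o <;> simp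

theorem corr_le {n a d Γ z : ℕ} (hl : Locl (Fin (n + a)) d Γ) (hz : 1 ≤ z) (hn : Γ * z < n)
    {C : List (List (Gate (n + a)))} (hd : C.length ≤ d) (h : ∀ L ∈ C, LayerWF L)
    (o : Fin (n + a)) : |corr C o| ≤ (1 / 2) ^ z := by
  let H : Op (Fin (n + a)) := prodM (Fin.addCases (fun _ => hm) fun _ => 1)
  have hH : IsProd H := ⟨_, fun i => by
    refine Fin.addCases (fun i => ?_) (fun i => ?_) i
    · simpa using hm_unitary
    · simp, rfl⟩
  let Z : Op (Fin (n + a)) := diagonal fun y => sg (y o)
  have hZ : Mono z Z := (mono_site o sg fun b => by cases b <;> simp [sg]).mono hz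
  let K : Op (Fin (n + a)) := prodM (Fin.addCases (fun _ => xm) fun _ => diagonal p0)
  have hW := ((cir_run C h).mono hd).star.prod_mul hH
  set A := H * (run C)ᴴ * Z * (H * (run C)ᴴ)ᴴ with hA
  have h1 : ((∑ x : Fin n → Bool, (prob C o x (par x) - prob C o x (!par x)) : ℝ) : ℂ) =
      trace (K * A) := by
    have h2 : H * prodM (fun i => diagonal (Fin.addCases (fun _ => sg) (fun _ => p0) i)) * Hᴴ =
        K := by
      simp only [H, K, prodM_star, prodM_mul]
      congr 1
      funext i
      refine Fin.addCases (fun i => ?_) (fun i => ?_) i <;> simp [hm_conj]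
    have h3 : Hᴴ * H = 1 := hH.unitary.1
    rw [Complex.ofReal_sum]
    simp only [prob_sub]
    rw [sum_diag, ← h2, hA, conjTranspose_mul, conjTranspose_conjTranspose]
    simp only [mul_assoc]
    rw [← mul_assoc Hᴴ, h3, one_mul, trace_mul_comm H]
    simp only [mul_assoc, h3, mul_one, Z]
  have h4 : ∀ x y, ‖K x y * A y x‖ ≤ ‖K x y‖ * (1 / 2) ^ z := fun x y => by
    by_cases hK : K x y = 0
    · simp [hK]
    rw [norm_mul]
    refine mul_le_mul_of_nonneg_left (le_trans (le_of_eq ?_) ((norm_entry_le _ y x).trans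
      (hl z hz _ hW Z hZ (Finset.univ.map (Fin.castAddEmb a)) x))) (norm_nonneg _)
    have h5 : cnt (Finset.univ.map (Fin.castAddEmb a)) x y = n := by
      rw [cnt, Finset.filter_true_of_mem, Finset.card_map, Finset.card_univ, Fintype.card_fin]
      intro i hi
      obtain ⟨j, -, rfl⟩ := Finset.mem_map.mp hi
      refine fun hj => hK (Finset.prod_eq_zero (Finset.mem_univ (Fin.castAdd a j)) ?_)
      simpa [xm] using hj.symm
    have h6 : cnt (Finset.univ.map (Fin.castAddEmb a)) x x = 0 := by simp [cnt]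
    simp [dg, h5, h6, hn, hA]
  have h6 : ∑ x, ∑ y, ‖K x y‖ = 2 ^ n := by
    simp [K, sum_norm, Fin.prod_univ_add, xm, p0, one_add_one_eq_two]
  unfold corr
  rw [abs_div, abs_of_pos (by positivity : (0 : ℝ) < 2 ^ n), div_le_iff₀ (by positivity),
    ← Real.norm_eq_abs, ← Complex.norm_real, h1, ← h6, mul_comm, Finset.sum_mul]
  refine (norm_sum_le _ _).trans (Finset.sum_le_sum fun x _ => ?_)
  rw [Finset.sum_mul]
  exact (norm_sum_le _ _).trans (Finset.sum_le_sum fun y _ => h4 x y)

end Vale.Agent.P368
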