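import Vale.Agent.P368.Iter
import Vale.Agent.P368.Par

/-! Parity is not in QAC0. -/

namespace Vale.Agent.P368

open Matrix
open scoped Matrix.Norms.L2Operator

theorem main (d c : ℕ) {ε : ℝ} (hε : 0 < ε) : ∃ n₀ : ℕ, ∀ n ≥ n₀, ∀ a : ℕ, n + a ≤ n ^ c →
    ∀ C : List (List (Gate (n + a))), C.length ≤ d → (∀ L ∈ C, LayerWF L) → ∀ o : Fin (n + a),
      |corr C o| < ε ∧ ∃ x : Fin n → Bool, prob C o x (par x) < 1 / 2 + ε := by
  obtain ⟨B₀, hB⟩ := locl_all d (2 * c + 1)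
  obtain ⟨z, hz⟩ := exists_pow_lt_of_lt_one hε (by norm_num : (1 / 2 : ℝ) < 1)
  refine ⟨(B₀ + z + 3) ^ 2, fun n hn a ha C hd h o => ?_⟩
  have h1 : B₀ + z + 3 ≤ n.sqrt := Nat.le_sqrt'.mpr hn
  have h2 := Nat.sqrt_le' n
  have h3 := Nat.lt_succ_sqrt' n
  obtain ⟨Γ, -, hΓ, hl⟩ := hB (n.sqrt + 1) (by omega) (Fin (n + a)) (by
    rw [Fintype.card_fin, pow_succ, pow_mul]
    exact lt_of_le_of_lt (ha.trans (Nat.pow_le_pow_left h3.le c))
      (lt_mul_of_one_lt_right (by positivity) (by omega)))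
  have h4 : |corr C o| < ε := by
    refine (corr_le hl (Nat.le_add_left 1 z) ?_ hd h o).trans_lt
      ((pow_le_pow_of_le_one (by norm_num) (by norm_num) (Nat.le_succ z)).trans_lt hz)
    nlinarith
  refine ⟨h4, ?_⟩
  by_contra! h5
  have h6 : ∑ _x : Fin n → Bool, 2 * ε ≤ ∑ x : Fin n → Bool,
      (prob C o x (par x) - prob C o x (!par x)) := Finset.sum_le_sum fun x _ => by
    linarith [h5 x, prob_add h o x (par x)]
  have h7 := (abs_lt.mp h4).2
  rw [corr, div_lt_iff₀ (by positivity)] at h7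
  simp [-Finset.sum_sub_distrib] at h6
  nlinarith [pow_pos (two_pos (α := ℝ)) n]

end Vale.Agent.P368
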