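import Vale.Agent.P368.Nrm
import Mathlib.Analysis.SpecialFunctions.Trigonometric.Chebyshev.RootsExtrema
import Mathlib.Analysis.Convex.SpecificFunctions.Basic

/-! Job PO: a low degree approximation of the vacuum projection. -/

namespace Vale.Agent.P368

open Matrix
open scoped Matrix.Norms.L2Operator

variable {ι : Type} [Fintype ι] [DecidableEq ι]

namespace PO

/-- Functions of the counter of bounded degree and weight. -/
def Fn (J : Finset ι) (u : ι → Bool) (m : ℕ) (Λ : ℝ) (g : ℕ → ℝ) : Prop :=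
  Dg m Λ (diagonal fun x => (g (cnt J u x) : ℂ))

variable {J : Finset ι} {u : ι → Bool}

lemma Fn.mono {m m' : ℕ} {Λ Λ' : ℝ} {g g' : ℕ → ℝ} (h : Fn J u m Λ g) (hm : m ≤ m')
    (hΛ : Λ ≤ Λ') (hg : ∀ n, g' n = g n) : Fn J u m' Λ' g' := by
  obtain rfl : g' = g := funext hg
  exact Dg.mono h hm hΛ

lemma Fn.one : Fn J u 0 1 fun _ => 1 := by
  unfold Fn
  simp only [Complex.ofReal_one, diagonal_one]
  exact Dg.one

lemma Fn.id : Fn J u 1 (Fintype.card ι) fun n => n := by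
  unfold Fn
  simp only [Complex.ofReal_natCast]
  exact dg_cnt J u

lemma Fn.mul {m m' : ℕ} {Λ Λ' : ℝ} {g g' : ℕ → ℝ} (h : Fn J u m Λ g) (h' : Fn J u m' Λ' g') :
    Fn J u (m + m') (Λ * Λ') fun n => g n * g' n := by
  have := Dg.mul h h'
  rw [diagonal_mul_diagonal] at this
  unfold Fn
  simpa only [Complex.ofReal_mul] using this

lemma Fn.add {m : ℕ} {Λ Λ' : ℝ} {g g' : ℕ → ℝ} (h : Fn J u m Λ g) (h' : Fn J u m Λ' g') :
    Fn J u m (Λ + Λ') fun n => g n + g' n := by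
  have := Dg.add h h'
  rw [diagonal_add] at this
  unfold Fn
  simpa only [Complex.ofReal_add] using this

lemma Fn.smul {m : ℕ} {Λ : ℝ} {g : ℕ → ℝ} (h : Fn J u m Λ g) (c : ℝ) :
    Fn J u m (|c| * Λ) fun n => c * g n := by
  have := Dg.smul h (c : ℂ)
  rw [← diagonal_smul, Complex.norm_real, Real.norm_eq_abs] at this
  unfold Fn
  simp only [Complex.ofReal_mul]
  exact this

lemma Fn.aff (a b : ℝ) : Fn J u 1 (|a| + |b| * Fintype.card ι) fun n => a + b * n :=
  (((Fn.one.smul a).mono (Nat.zero_le 1) le_rfl fun _ => rfl).add (Fn.id.smul b)).mono le_rfl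
    (by rw [mul_one]) fun n => by rw [mul_one]

lemma Fn.prod {K : ℝ} (s : Finset ℕ) (g : ℕ → ℕ → ℝ) (h : ∀ j ∈ s, Fn J u 1 K (g j)) :
    Fn J u s.card (K ^ s.card) fun n => ∏ j ∈ s, g j n := by
  induction s using Finset.induction_on with
  | empty => simpa using Fn.one
  | insert a s ha ih =>
    rw [Finset.card_insert_of_notMem ha]
    exact ((ih fun j hj => h j (Finset.mem_insert_of_mem hj)).mul
      (h a (Finset.mem_insert_self _ _))).mono le_rfl (pow_succ _ _).ge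
      fun n => by rw [Finset.prod_insert ha, mul_comm]

lemma Fn.cheb {K : ℝ} (hK : 1 ≤ K) {g : ℕ → ℝ} (h : Fn J u 1 K g) (k : ℕ) :
    Fn J u k ((4 * K) ^ k) fun n => (Polynomial.Chebyshev.T ℝ k).eval (g n) := by
  induction k using Nat.twoStepInduction with
  | zero => simpa using Fn.one
  | one => exact h.mono le_rfl (by rw [pow_one]; linarith) fun n => by simp
  | more k ih1 ih2 =>
    refine ((((h.mul ih2).smul 2).mono (m' := k + 2) (by omega) le_rfl fun _ => rfl).add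
      ((ih1.smul (-1)).mono (by omega) le_rfl fun _ => rfl)).mono le_rfl ?_ fun n => ?_
    · have h0 : 0 ≤ (4 * K) ^ k := by positivity
      rw [abs_neg, abs_one, abs_two, pow_succ, pow_succ, pow_succ]
      nlinarith [mul_le_mul_of_nonneg_left (one_le_mul_of_one_le_of_one_le hK hK) h0]
    · push_cast
      rw [Polynomial.Chebyshev.T_add_two]
      simp only [Polynomial.eval_sub, Polynomial.eval_mul, Polynomial.eval_X,
        Polynomial.eval_ofNat]
      ring

end PO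

theorem exists_poly {L M s lam : ℕ} (hL : 1 ≤ L) (hM : L ≤ M) (hs : M * L ≤ s ^ 2)
    (hN : Fintype.card ι + 1 ≤ 2 ^ lam) (J : Finset ι) (u : ι → Bool) :
    ∃ f : ℕ → ℝ, f 0 = 1 ∧ (∀ h, 1 ≤ h → h ≤ M → h ≤ Fintype.card ι → |f h| ≤ (1 / 2) ^ L) ∧
      Dg ((lam + 3) * s) (2 ^ ((lam + 3) ^ 2 * s)) (diagonal fun x => (f (cnt J u x) : ℂ)) := by
  have hLs : L ≤ s := by
    by_contra hc
    have := not_le.1 hc
    nlinarith
  have hL0 : (0 : ℝ) < L := by exact_mod_cast hL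
  have hM0 : (0 : ℝ) < M := by exact_mod_cast hL.trans hM
  have hM1 : (1 : ℝ) ≤ M := by exact_mod_cast hL.trans hM
  have hs0 : (0 : ℝ) < s := by exact_mod_cast hL.trans hLs
  have hN' : (Fintype.card ι : ℝ) + 1 ≤ 2 ^ lam := by exact_mod_cast hN
  obtain ⟨t, ht⟩ : ∃ t : ℝ, t = L / s := ⟨_, rfl⟩
  have ht0 : 0 < t := by rw [ht]; positivity
  have ht1 : t ≤ 1 := by rw [ht, div_le_one hs0]; exact_mod_cast hLs
  obtain ⟨X, hX⟩ : ∃ X : ℝ, X = Real.cosh (Real.log (1 + t)) := ⟨_, rfl⟩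
  have hX1 : 1 ≤ X := hX ▸ Real.one_le_cosh _
  have hX2 : X ≤ 1 + t ^ 2 / 2 := by
    rw [hX, Real.cosh_log (by linarith)]
    have : (1 + t)⁻¹ ≤ 1 - t + t ^ 2 := by
      rw [inv_le_iff_one_le_mul₀ (by linarith)]
      nlinarith [pow_nonneg ht0.le 3]
    linarith
  have ht2 : t ^ 2 ≤ L / M := by
    rw [ht, div_pow, div_le_div_iff₀ (by positivity) hM0]
    have : (M : ℝ) * L ≤ s ^ 2 := by exact_mod_cast hs
    nlinarith
  obtain ⟨Y, hY⟩ : ∃ Y : ℝ, Y = (Polynomial.Chebyshev.T ℝ ((lam + 2) * s : ℕ)).eval X := ⟨_, rfl⟩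
  have hY1 : 1 ≤ Y := hY ▸ Polynomial.Chebyshev.one_le_eval_T_real _ hX1
  have hY2 : (2 : ℝ) ^ (L * (lam + 2)) ≤ 2 * Y := by
    rw [hY, hX, Polynomial.Chebyshev.T_real_cosh, Real.cosh_eq, Int.cast_natCast,
      Real.exp_nat_mul, Real.exp_log (by linarith)]
    have a1 : (2 : ℝ) ^ t ≤ 1 + t := by
      have := rpow_one_add_le_one_add_mul_self (s := 1) (by norm_num) ht0.le ht1
      rwa [one_add_one_eq_two, mul_one] at this
    have a2 : (2 : ℝ) ^ L ≤ (1 + t) ^ s := by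
      refine le_trans (le_of_eq ?_) (pow_le_pow_left₀ (by positivity) a1 s)
      rw [← Real.rpow_mul_natCast (by norm_num), ht, div_mul_cancel₀ _ hs0.ne', Real.rpow_natCast]
    have a3 := pow_le_pow_left₀ (by positivity) a2 (lam + 2)
    rw [← pow_mul, ← pow_mul, mul_comm s] at a3
    linarith [Real.exp_nonneg (-((((lam + 2) * s : ℕ) : ℝ) * Real.log (1 + t)))]
  refine ⟨fun h => Y⁻¹ * ((∏ j ∈ Finset.Icc 1 L, (1 + -(1 / (j : ℝ)) * h)) *
    (Polynomial.Chebyshev.T ℝ ((lam + 2) * s : ℕ)).eval (X + -(2 / M) * h)), ?_, ?_, ?_⟩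
  · simp only [Nat.cast_zero, mul_zero, add_zero, Finset.prod_const_one, one_mul, ← hY]
    exact inv_mul_cancel₀ (by linarith)
  · intro h h1 h2 h3
    beta_reduce
    by_cases hh : h ≤ L
    · rw [Finset.prod_eq_zero (Finset.mem_Icc.2 ⟨h1, hh⟩), zero_mul, mul_zero, abs_zero]
      · positivity
      · have : (h : ℝ) ≠ 0 := by exact_mod_cast (by omega : h ≠ 0)
        field_simp
        ring
    have hh' : (L : ℝ) ≤ h := by exact_mod_cast (not_le.1 hh).le
    have h2' : (h : ℝ) ≤ M := by exact_mod_cast h2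
    have h3' : (h : ℝ) ≤ Fintype.card ι := by exact_mod_cast h3
    have b1 : |∏ j ∈ Finset.Icc 1 L, (1 + -(1 / (j : ℝ)) * h)| ≤ 2 ^ (lam * L) := by
      rw [Finset.abs_prod]
      refine (Finset.prod_le_prod (g := fun _ => (2 : ℝ) ^ lam) (fun _ _ => abs_nonneg _)
        fun j hj => ?_).trans ?_
      · have c1 : (1 : ℝ) ≤ j := by exact_mod_cast (Finset.mem_Icc.1 hj).1
        have c2 : 1 / (j : ℝ) ≤ 1 := by rw [div_le_one (by linarith)]; exact c1
        have c3 : 0 ≤ 1 / (j : ℝ) := by positivity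
        have c4 : (0 : ℝ) ≤ h := Nat.cast_nonneg _
        rw [abs_le]
        constructor <;> nlinarith
      · rw [Finset.prod_const, Nat.card_Icc, Nat.add_sub_cancel, ← pow_mul]
    have b2 : |(Polynomial.Chebyshev.T ℝ ((lam + 2) * s : ℕ)).eval (X + -(2 / M) * h)| ≤ 1 := by
      refine Polynomial.Chebyshev.abs_eval_T_real_le_one _ ?_
      have c1 : (h : ℝ) / M ≤ 1 := by rw [div_le_one hM0]; exact h2'
      have c2 : (L : ℝ) / M ≤ h / M := div_le_div_of_nonneg_right hh' hM0.le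
      have c3 : -(2 / (M : ℝ)) * h = -2 * (h / M) := by ring
      have c4 : 0 ≤ (h : ℝ) / M := by positivity
      rw [c3, abs_le]
      constructor <;> linarith
    rw [abs_mul, abs_mul, abs_of_pos (inv_pos.2 (by linarith)), inv_mul_le_iff₀ (by linarith)]
    refine (mul_le_mul b1 b2 (abs_nonneg _) (by positivity)).trans ?_
    rw [mul_one, one_div, inv_pow, ← div_eq_mul_inv, le_div_iff₀ (by positivity), ← pow_add]
    have c1 : (2 : ℝ) ^ (lam * L + L + 1) ≤ 2 ^ (L * (lam + 2)) :=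
      pow_le_pow_right₀ (by norm_num) (by nlinarith)
    rw [pow_succ] at c1
    linarith
  · have h2l : (1 : ℝ) ≤ 2 ^ lam := one_le_pow₀ (by norm_num)
    have hc0 : (0 : ℝ) ≤ Fintype.card ι := Nat.cast_nonneg _
    have b1 := PO.Fn.prod (J := J) (u := u) (K := 2 ^ lam) (Finset.Icc 1 L)
      (fun j h => 1 + -(1 / (j : ℝ)) * h) fun j hj => (PO.Fn.aff 1 _).mono le_rfl (by
        have c1 : (1 : ℝ) ≤ j := by exact_mod_cast (Finset.mem_Icc.1 hj).1
        have c2 : 1 / (j : ℝ) ≤ 1 := by rw [div_le_one (by linarith)]; exact c1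
        rw [abs_one, abs_neg, abs_of_nonneg (by positivity)]
        nlinarith) fun _ => rfl
    have b2 := PO.Fn.cheb (J := J) (u := u) (K := 2 * 2 ^ lam) (by linarith)
      ((PO.Fn.aff X (-(2 / M))).mono le_rfl (by
        have c1 : 2 / (M : ℝ) ≤ 2 := div_le_self (by norm_num) hM1
        rw [abs_neg, abs_of_nonneg (by linarith), abs_of_nonneg (by positivity)]
        nlinarith) fun _ => rfl) ((lam + 2) * s)
    rw [Nat.card_Icc, Nat.add_sub_cancel] at b1
    refine ((b1.mul b2).smul Y⁻¹).mono (by nlinarith) ?_ fun _ => rfl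
    have c1 : |Y⁻¹| ≤ 1 := by
      rw [abs_of_pos (inv_pos.2 (by linarith))]
      exact inv_le_one_of_one_le₀ hY1
    refine (mul_le_of_le_one_left (by positivity) c1).trans ?_
    rw [show (4 : ℝ) * (2 * 2 ^ lam) = 2 ^ (lam + 3) by ring, ← pow_mul, ← pow_mul, ← pow_add]
    refine pow_le_pow_right₀ (by norm_num) ?_
    nlinarith [Nat.mul_le_mul_left lam hLs]

end Vale.Agent.P368
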