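import Vale.Agent.P368.Poly

/-! Job BS: one step of the bootstrap. -/

namespace Vale.Agent.P368

open Matrix
open scoped Matrix.Norms.L2Operator

variable {ι : Type} [Fintype ι] [DecidableEq ι]

namespace BS

lemma sq_le {E G V P : Op ι} (hE : ‖E‖ ≤ 1) (hG : ‖G‖ ≤ 1) (hEs : Eᴴ = E) (hGs : Gᴴ = G)
    (hVs : Vᴴ = V) (hVV : V * V = V) :
    ‖E * G * V‖ * ‖E * G * V‖ ≤ ‖E * P * V‖ + ‖(G - P) * V * G‖ := by
  have h1 := l2_opNorm_conjTranspose_mul_self (E * G * V)ᴴ
  rw [l2_opNorm_conjTranspose, conjTranspose_conjTranspose] at h1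
  rw [← h1]
  have e : E * G * V * (E * G * V)ᴴ = E * P * V * (G * E) + E * ((G - P) * V * G) * E := by
    rw [conjTranspose_mul, conjTranspose_mul, hEs, hGs, hVs]
    calc E * G * V * (V * (G * E)) = E * G * (V * V) * (G * E) := by simp only [Matrix.mul_assoc]
      _ = _ := by rw [hVV]; noncomm_ring
  rw [e]
  have hGE : ‖G * E‖ ≤ 1 := (norm_mul_le _ _).trans (mul_le_one₀ hG (norm_nonneg _) hE)
  refine (norm_add_le _ _).trans (add_le_add ?_ ?_)
  · exact (norm_mul_le _ _).trans (mul_le_of_le_one_right (norm_nonneg _) hGE)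
  · refine (norm_mul_le _ _).trans ((mul_le_of_le_one_right (norm_nonneg _) hE).trans ?_)
    exact (norm_mul_le _ _).trans (mul_le_of_le_one_left (norm_nonneg _) hE)

lemma pow_bd {a s n L : ℕ} (h : a + s ≤ n) (hL : L ≤ s) :
    (2 : ℝ) ^ a * (1 / 2) ^ n ≤ (1 / 2) ^ L := by
  have h1 : ((1 : ℝ) / 2) ^ n ≤ (1 / 2) ^ (a + L) :=
    pow_le_pow_of_le_one (by norm_num) (by norm_num) (by omega)
  calc (2 : ℝ) ^ a * (1 / 2) ^ n ≤ 2 ^ a * (1 / 2) ^ (a + L) :=
        mul_le_mul_of_nonneg_left h1 (by positivity)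
    _ = (1 / 2) ^ L := by rw [pow_add, ← mul_assoc, ← mul_pow]; norm_num

end BS

theorem boot_step {d Γ lam M Λ L s x : ℕ} (h : Locl ι d Γ) (hN : Fintype.card ι + 1 ≤ 2 ^ lam)
    (hT : Tail ι d M Λ) (hL : 1 ≤ L) (hM : 4 * L ≤ M) (hs : M * (4 * L) ≤ s ^ 2)
    (hΛ : ((lam + 3) ^ 2 + 1) * s ≤ Λ) (hx : Γ * (((lam + 3) ^ 2 + 1) * s) < x) :
    Tail ι d x L := by
  intro W hW S v J u
  obtain ⟨f, f0, hf, hF⟩ := exists_poly (L := 4 * L) (by omega) hM hs hN J u
  have hLs : 4 * L ≤ s := by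
    by_contra hc
    push Not at hc
    have h1 : s ^ 2 < (4 * L) ^ 2 := Nat.pow_lt_pow_left hc (by norm_num)
    have h2 : (4 * L) ^ 2 ≤ M * (4 * L) := by rw [sq]; exact Nat.mul_le_mul_right _ hM
    omega
  have hU := hW.unitary
  have hWW : Wᴴ * W = 1 := hU.1
  obtain ⟨F, hFd⟩ : ∃ F : Op ι, F = diagonal fun y => (f (cnt J u y) : ℂ) := ⟨_, rfl⟩
  rw [← hFd] at hF
  have hG : ‖W * dg (fun y => cnt J u y = 0) * Wᴴ‖ ≤ 1 := by
    rw [norm_conj hU]; exact norm_dg_le _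
  have hsq := BS.sq_le (E := dg fun y => x ≤ cnt S v y) (G := W * dg (fun y => cnt J u y = 0) * Wᴴ)
    (V := dg fun y => cnt S v y = 0) (P := W * F * Wᴴ) (norm_dg_le _) hG (dg_star _)
    (by rw [conjTranspose_mul, conjTranspose_mul, conjTranspose_conjTranspose, dg_star,
      Matrix.mul_assoc]) (dg_star _) (by rw [dg_mul_dg]; unfold dg; congr 1; funext y; simp)
  have ez : ((lam + 3) ^ 2 + 1) * s = (lam + 3) ^ 2 * s + s := by ring
  have b1 : ‖dg (fun y => x ≤ cnt S v y) * (W * F * Wᴴ) * dg fun y => cnt S v y = 0‖ ≤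
      (1 / 2) ^ (4 * L) := by
    have h1 := hF.bound (β := (1 / 2) ^ (((lam + 3) ^ 2 + 1) * s)) (by positivity)
      (dg (fun y => x ≤ cnt S v y) * W) (Wᴴ * dg fun y => cnt S v y = 0) (fun M' hM' => by
        have h2 := h (((lam + 3) ^ 2 + 1) * s) (by omega) W hW M'
          (hM'.mono (Nat.mul_le_mul_right s (by nlinarith))) S v
        refine le_trans (le_of_eq ?_) ((norm_dg_mono (p := fun y => x ≤ cnt S v y)
          (q := fun y => cnt S v y = 0) (fun y hy => lt_of_lt_of_le hx hy)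
          (fun y hy => by rw [hy]; exact Nat.zero_le _) _).trans h2)
        simp only [Matrix.mul_assoc])
    refine le_trans (le_of_eq ?_) (h1.trans (BS.pow_bd ez.ge hLs))
    simp only [Matrix.mul_assoc]
  have hFn : ‖F‖ ≤ 2 ^ ((lam + 3) ^ 2 * s) := by
    have h1 := hF.bound (β := 1) zero_le_one 1 1 (fun M' hM' => by
      obtain ⟨_, _, -, -, -, h2⟩ := hM'
      rwa [Matrix.one_mul, Matrix.mul_one])
    rwa [Matrix.one_mul, Matrix.mul_one, mul_one] at h1
  obtain ⟨D, hD⟩ : ∃ D : Op ι, D = diagonal fun y =>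
    if 1 ≤ cnt J u y ∧ cnt J u y < M then -(f (cnt J u y) : ℂ) else 0 := ⟨_, rfl⟩
  have hDn : ‖D‖ ≤ (1 / 2) ^ (4 * L) := by
    rw [hD]
    refine norm_diagonal_le (by positivity) fun y => ?_
    split_ifs with hy
    · rw [norm_neg, Complex.norm_real, Real.norm_eq_abs]
      exact hf _ hy.1 hy.2.le ((Finset.card_filter_le _ _).trans (Finset.card_le_univ _))
    · rw [norm_zero]; positivity
  have eD : dg (fun y => cnt J u y = 0) - F = D - F * dg fun y => M ≤ cnt J u y := by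
    rw [hD, hFd]
    unfold dg
    rw [diagonal_mul_diagonal, diagonal_sub, diagonal_sub]
    congr 1
    funext y
    by_cases h0 : cnt J u y = 0
    · rw [if_pos h0, if_neg (by omega), if_neg (by omega), h0, f0]
      simp
    · by_cases h1 : cnt J u y < M
      · rw [if_neg h0, if_pos ⟨by omega, h1⟩, if_neg (by omega)]
        simp
      · rw [if_neg h0, if_neg (by omega), if_pos (by omega)]
        simp
  obtain ⟨X, hX⟩ : ∃ X : Op ι, X = Wᴴ * dg (fun y => cnt S v y = 0) * Wᴴᴴ := ⟨_, rfl⟩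
  have hXn : ‖X‖ ≤ 1 := by
    rw [hX, norm_conj hW.star.unitary]; exact norm_dg_le _
  have hT' := hT Wᴴ hW.star J u S v
  rw [← hX] at hT'
  have b2 : ‖(W * dg (fun y => cnt J u y = 0) * Wᴴ - W * F * Wᴴ) * (dg fun y => cnt S v y = 0) *
      (W * dg (fun y => cnt J u y = 0) * Wᴴ)‖ ≤ (1 / 2) ^ (4 * L) + (1 / 2) ^ (4 * L) := by
    have e : (W * dg (fun y => cnt J u y = 0) * Wᴴ - W * F * Wᴴ) * (dg fun y => cnt S v y = 0) *
        (W * dg (fun y => cnt J u y = 0) * Wᴴ) =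
        W * (D * (X * dg fun y => cnt J u y = 0) -
          F * (dg (fun y => M ≤ cnt J u y) * X * dg fun y => cnt J u y = 0)) * Wᴴ := by
      rw [← Matrix.sub_mul, ← Matrix.mul_sub, eD, hX, conjTranspose_conjTranspose]
      noncomm_ring
    rw [e, norm_conj hU]
    refine (norm_sub_le _ _).trans (add_le_add ?_ ?_)
    · refine (norm_mul_le _ _).trans ((mul_le_of_le_one_right (norm_nonneg _) ?_).trans hDn)
      exact (norm_mul_le _ _).trans (mul_le_one₀ hXn (norm_nonneg _) (norm_dg_le _))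
    · refine (norm_mul_le _ _).trans
        ((mul_le_mul hFn hT' (norm_nonneg _) (by positivity)).trans ?_)
      exact BS.pow_bd (ez.ge.trans hΛ) hLs
  refine (mul_self_le_mul_self_iff (norm_nonneg _) (by positivity)).2 (hsq.trans ?_)
  have c1 : ((1 : ℝ) / 2) ^ (4 * L) = (1 / 2) ^ L * (1 / 2) ^ L * (1 / 2) ^ (2 * L) := by
    rw [← pow_add, ← pow_add]; congr 1; ring
  have c2 : ((1 : ℝ) / 2) ^ (2 * L) ≤ (1 / 2) ^ 2 :=
    pow_le_pow_of_le_one (by norm_num) (by norm_num) (by omega)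
  have c3 : (0 : ℝ) ≤ (1 / 2) ^ L * (1 / 2) ^ L := by positivity
  have c4 := mul_le_mul_of_nonneg_left c2 c3
  rw [← c1] at c4
  linarith

end Vale.Agent.P368
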